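import Claimed.Agent.R255.BR.Split
import Claimed.Prelude.Def_0423

/-!
# R255 / BR / Conv : `bochnerRiesz δ f = K_δ * f`, `K_δ(x) = Gc δ ‖x‖`                        (architect helper9)

BR paper l.190-205 and l.362-368.  Leaves **BR-K\***.  Statements frozen, edit in place.
-/

set_option autoImplicit false

namespace Claimed.Agent.R255.BR

open MeasureTheory Complex Claims.C0423
open scoped ENNReal ContDiff InnerProductSpace Real FourierTransform

/-- the multiplier `(1-|ξ|²)_+^δ` exactly as in `Def_0423` -/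
noncomputable def mdel (δ : ℝ) (ξ : E3) : ℂ := (Real.rpow (max (1 - ‖ξ‖ ^ 2) 0) δ : ℂ)

theorem Gf_continuous {δ : ℝ} (hδ : 0 < δ) : Continuous (Gf δ) := by
  unfold Gf
  refine continuous_const.mul (Continuous.rpow_const (by fun_prop) fun τ => Or.inr (by linarith))

/-- **BR-K1a** `0 ≤ G ≤ π` on `[-1,1]`. -/
theorem Gf_bound {δ : ℝ} (hδ : 0 < δ) {τ : ℝ} (hτ : τ ∈ Set.Icc (-1 : ℝ) 1) : 0 ≤ Gf δ τ ∧ Gf δ τ ≤ π := by
  have h1 : 0 ≤ 1 - τ ^ 2 := by nlinarith [hτ.1, hτ.2]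
  have h2 : 1 - τ ^ 2 ≤ 1 := by nlinarith [sq_nonneg τ]
  have h3 : 0 ≤ (1 - τ ^ 2) ^ (1 + δ) := Real.rpow_nonneg h1 _
  have h4 : (1 - τ ^ 2) ^ (1 + δ) ≤ 1 := Real.rpow_le_one h1 h2 (by linarith)
  have h5 : 0 ≤ π / (1 + δ) := by positivity
  have h6 : π / (1 + δ) ≤ π := div_le_self Real.pi_pos.le (by linarith)
  unfold Gf
  exact ⟨mul_nonneg h5 h3, by nlinarith⟩

/-- **BR-K1b** (`intervalIntegral.continuous_parametric_intervalIntegral_of_continuous`). -/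
theorem Gc_continuous (δ : ℝ) (hδ : 0 < δ) : Continuous (Gc δ) := by
  unfold Gc
  refine intervalIntegral.continuous_parametric_intervalIntegral_of_continuous' ?_ _ _
  have h1 : Continuous fun p : ℝ × ℝ => (Gf δ p.2 : ℂ) :=
    Complex.continuous_ofReal.comp ((Gf_continuous hδ).comp continuous_snd)
  have h2 : Continuous fun p : ℝ × ℝ => ee (p.2 * p.1) :=
    continuous_ee.comp (continuous_snd.mul continuous_fst)
  exact h1.mul h2

/-- **BR-K1c** (`intervalIntegral.norm_integral_le_of_norm_le_const`). -/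
theorem Gc_bound (δ : ℝ) (hδ : 0 < δ) (r : ℝ) : ‖Gc δ r‖ ≤ 2 * π := by
  unfold Gc
  have h := intervalIntegral.norm_integral_le_of_norm_le_const (a := (-1 : ℝ)) (b := 1)
    (f := fun τ => (Gf δ τ : ℂ) * ee (τ * r)) (C := π) (fun τ hτ => by
      rw [Set.uIoc_of_le (by norm_num)] at hτ
      have hb := Gf_bound hδ (τ := τ) ⟨hτ.1.le, hτ.2⟩
      rw [norm_mul, norm_ee, mul_one, Complex.norm_real, Real.norm_eq_abs, abs_of_nonneg hb.1]
      exact hb.2)
  refine h.trans (le_of_eq ?_)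
  rw [show (1 : ℝ) - -1 = 2 by norm_num, abs_of_pos (by norm_num : (0 : ℝ) < 2)]
  ring

/-- **BR-K2a** the multiplier is continuous, bounded by `1`, supported in the unit ball. -/
theorem mdel_continuous {δ : ℝ} (hδ : 0 < δ) : Continuous (mdel δ) := by
  unfold mdel
  refine Complex.continuous_ofReal.comp ?_
  exact Continuous.rpow_const (by fun_prop) fun ξ => Or.inr hδ.le

theorem mdel_norm_le {δ : ℝ} (hδ : 0 < δ) (ξ : E3) : ‖mdel δ ξ‖ ≤ 1 := by
  unfold mdel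
  have h1 : 0 ≤ max (1 - ‖ξ‖ ^ 2) 0 := le_max_right _ _
  have h2 : max (1 - ‖ξ‖ ^ 2) 0 ≤ 1 := max_le (by nlinarith [sq_nonneg ‖ξ‖]) zero_le_one
  rw [Complex.norm_real, Real.norm_eq_abs]
  show |(max (1 - ‖ξ‖ ^ 2) 0) ^ δ| ≤ 1
  rw [abs_of_nonneg (Real.rpow_nonneg h1 _)]
  exact Real.rpow_le_one h1 h2 hδ.le

theorem mdel_supp {δ : ℝ} (hδ : 0 < δ) {ξ : E3} (h : mdel δ ξ ≠ 0) : ‖ξ‖ ≤ 1 := by
  by_contra hcon
  have hcon : 1 < ‖ξ‖ := not_le.1 hcon
  apply h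
  unfold mdel
  have h1 : max (1 - ‖ξ‖ ^ 2) 0 = 0 := max_eq_right (by nlinarith)
  rw [h1]
  show (((0 : ℝ) ^ δ : ℝ) : ℂ) = 0
  rw [Real.zero_rpow hδ.ne']
  simp

theorem mdel_integrable {δ : ℝ} (hδ : 0 < δ) : Integrable (mdel δ) volume := by
  refine (mdel_continuous hδ).integrable_of_hasCompactSupport ?_
  refine HasCompactSupport.intro (isCompact_closedBall (0 : E3) 1) fun ξ hξ => ?_
  by_contra hne
  exact hξ (by simpa using mdel_supp hδ hne)

theorem integral_disc_aux {δ : ℝ} (hδ : 0 < δ) (a : ℝ) :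
    ∫ y in Set.Ioi (0 : ℝ), y * (max (a - y ^ 2) 0) ^ δ = (max a 0) ^ (1 + δ) / (2 * (1 + δ)) := by
  rcases le_or_gt a 0 with ha | ha
  · rw [max_eq_right ha, Real.zero_rpow (by linarith), zero_div]
    refine setIntegral_eq_zero_of_forall_eq_zero fun y _ => ?_
    rw [max_eq_right (by nlinarith [sq_nonneg y]), Real.zero_rpow hδ.ne', mul_zero]
  · rw [max_eq_left ha.le]
    have hs : 0 ≤ √a := Real.sqrt_nonneg a
    have hs2 : √a ^ 2 = a := Real.sq_sqrt ha.le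
    have h1 : ∫ y in Set.Ioi (0 : ℝ), y * (max (a - y ^ 2) 0) ^ δ
        = ∫ y in Set.Ioc (0 : ℝ) (√a), y * (max (a - y ^ 2) 0) ^ δ := by
      refine setIntegral_eq_of_subset_of_forall_sdiff_eq_zero measurableSet_Ioi
        (fun y hy => hy.1) fun y hy => ?_
      have hy1 : 0 < y := hy.1
      have hy2 : √a < y := by
        by_contra hcon
        exact hy.2 ⟨hy1, not_lt.1 hcon⟩
      have hy3 : a < y ^ 2 := by nlinarith
      rw [max_eq_right (by linarith), Real.zero_rpow hδ.ne', mul_zero]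
    rw [h1, ← intervalIntegral.integral_of_le hs]
    have h2 : ∫ y in (0 : ℝ)..(√a), y * (max (a - y ^ 2) 0) ^ δ = ∫ y in (0 : ℝ)..(√a), y * (a - y ^ 2) ^ δ := by
      refine intervalIntegral.integral_congr fun y hy => ?_
      rw [Set.uIcc_of_le hs] at hy
      have : y ^ 2 ≤ a := by nlinarith [hy.1, hy.2]
      show y * (max (a - y ^ 2) 0) ^ δ = y * (a - y ^ 2) ^ δ
      rw [max_eq_left (by linarith)]
    rw [h2]
    have hder : ∀ y ∈ Set.uIcc (0 : ℝ) (√a),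
        HasDerivAt (fun y : ℝ => -((a - y ^ 2) ^ (1 + δ)) / (2 * (1 + δ))) (y * (a - y ^ 2) ^ δ) y := by
      intro y _
      have h3 : HasDerivAt (fun y : ℝ => a - y ^ 2) (-(2 * y)) y := by
        have := ((hasDerivAt_id y).pow 2).const_sub a
        simpa using this
      have h4 := (h3.rpow_const (p := 1 + δ) (Or.inr (by linarith))).neg.div_const (2 * (1 + δ))
      have h5 : -(-(2 * y) * (1 + δ) * (a - y ^ 2) ^ (1 + δ - 1)) / (2 * (1 + δ)) = y * (a - y ^ 2) ^ δ := by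
        rw [show 1 + δ - 1 = δ by ring]
        have : (1 + δ) ≠ 0 := by linarith
        field_simp
      rw [h5] at h4
      exact h4
    have hcont : Continuous fun y : ℝ => y * (a - y ^ 2) ^ δ :=
      continuous_id.mul (Continuous.rpow_const (by fun_prop) fun y => Or.inr hδ.le)
    rw [intervalIntegral.integral_eq_sub_of_hasDerivAt hder (hcont.intervalIntegrable _ _), hs2, sub_self,
      Real.zero_rpow (by linarith)]
    simp
    ring

/-- **BR-K3** the area integral.  `integral_fun_norm_addHaar` on `E2` (`finrank = 2`, `volume (ball 0 1) = π`: `EuclideanSpace.volume_ball`/`InnerProductSpace.volume_ball`),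
then `∫_0^{√a} 2 r (a - r²)^δ dr = a^{1+δ}/(1+δ)` (FTC with the primitive `-(a - r²)^{1+δ}/(1+δ)`). -/
theorem integral_disc {δ : ℝ} (hδ : 0 < δ) (a : ℝ) :
    ∫ η : E2, (max (a - ‖η‖ ^ 2) 0) ^ δ = π / (1 + δ) * (max a 0) ^ (1 + δ) := by
  have h0 := integral_fun_norm_addHaar (volume : Measure E2) (fun y : ℝ => (max (a - y ^ 2) 0) ^ δ)
  rw [h0]
  have hdim : Module.finrank ℝ E2 = 2 := by simp
  have hvol : (volume : Measure E2).real (Metric.ball 0 1) = π := by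
    rw [Measure.real, EuclideanSpace.volume_ball_fin_two]
    simp [Real.pi_pos.le]
  rw [hdim, hvol]
  have h1 : ∫ y in Set.Ioi (0 : ℝ), y ^ (2 - 1) • (max (a - y ^ 2) 0) ^ δ
      = ∫ y in Set.Ioi (0 : ℝ), y * (max (a - y ^ 2) 0) ^ δ := by
    simp
  rw [h1, integral_disc_aux hδ a]
  have : (1 + δ) ≠ 0 := by linarith
  simp only [nsmul_eq_mul, smul_eq_mul]
  field_simp
  ring

/-- the inverse Fourier transform in the normal form of `ee` -/
theorem fourierInv_ee {V : Type*} [NormedAddCommGroup V] [InnerProductSpace ℝ V] [MeasurableSpace V] [BorelSpace V]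
    [FiniteDimensional ℝ V] (f : V → ℂ) (w : V) : 𝓕⁻ f w = ∫ v, ee ⟪v, w⟫_ℝ * f v := by
  rw [Real.fourierInv_eq']
  rfl

theorem inner_J_e3 (p : E2 × ℝ) (r : ℝ) : ⟪J p, r • e3⟫_ℝ = p.2 * r := by
  rw [inner_smul_right, e3, inner_J]
  simp
  ring

theorem mdel_J (δ : ℝ) (p : E2 × ℝ) :
    mdel δ (J p) = (((max ((1 - p.2 ^ 2) - ‖p.1‖ ^ 2) 0) ^ δ : ℝ) : ℂ) := by
  unfold mdel
  rw [norm_J_sq, show 1 - (‖p.1‖ ^ 2 + p.2 ^ 2) = (1 - p.2 ^ 2) - ‖p.1‖ ^ 2 by ring]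
  rfl

/-- **BR-K4** the kernel on the axis.  `Real.fourierIntegralInv_eq` (`𝓕⁻ g w = ∫ v, 𝐞 ⟪v, w⟫ • g v`), `integral_J`, `inner_J`, `norm_J_sq`, Fubini (`integral_prod_symm`),
`integral_disc` with `a = 1 - τ²`; the outer integrand vanishes for `|τ| > 1`. -/
theorem fourierInv_mdel_axis {δ : ℝ} (hδ : 0 < δ) (r : ℝ) : 𝓕⁻ (mdel δ) (r • e3) = Gc δ r := by
  rw [fourierInv_ee, integral_J]
  have hint3 : Integrable (fun x : E3 => ee ⟪x, r • e3⟫_ℝ * mdel δ x) volume := by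
    refine (mdel_integrable hδ).bdd_mul (c := 1) ?_ ?_
    · exact (continuous_ee.comp (continuous_id.inner continuous_const)).aestronglyMeasurable
    · exact Filter.Eventually.of_forall fun x => (norm_ee _).le
  have hint : Integrable (fun p : E2 × ℝ => ee ⟪J p, r • e3⟫_ℝ * mdel δ (J p)) (volume.prod volume) :=
    measurePreserving_J.integrable_comp_of_integrable hint3
  have h1 : ∫ p : E2 × ℝ, ee ⟪J p, r • e3⟫_ℝ * mdel δ (J p)
      = ∫ τ : ℝ, ∫ η : E2, ee ⟪J (η, τ), r • e3⟫_ℝ * mdel δ (J (η, τ)) := integral_prod_symm _ hint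
  rw [h1]
  have h2 : ∀ τ : ℝ, ∫ η : E2, ee ⟪J (η, τ), r • e3⟫_ℝ * mdel δ (J (η, τ))
      = ee (τ * r) * ((π / (1 + δ) * (max (1 - τ ^ 2) 0) ^ (1 + δ) : ℝ) : ℂ) := fun τ => by
    simp only [inner_J_e3, mdel_J]
    rw [integral_const_mul, integral_complex_ofReal, integral_disc hδ]
  simp only [h2]
  have h3 : ∫ τ : ℝ, ee (τ * r) * ((π / (1 + δ) * (max (1 - τ ^ 2) 0) ^ (1 + δ) : ℝ) : ℂ)
      = ∫ τ in Set.Ioc (-1 : ℝ) 1, ee (τ * r) * ((π / (1 + δ) * (max (1 - τ ^ 2) 0) ^ (1 + δ) : ℝ) : ℂ) := by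
    refine (setIntegral_eq_integral_of_forall_compl_eq_zero fun τ hτ => ?_).symm
    have h4 : 1 - τ ^ 2 ≤ 0 := by
      by_contra hcon
      have hcon : τ ^ 2 < 1 := by linarith [not_le.1 hcon]
      have := abs_lt.1 ((sq_lt_one_iff_abs_lt_one τ).1 hcon)
      exact hτ ⟨this.1, this.2.le⟩
    rw [max_eq_right h4, Real.zero_rpow (by linarith)]
    simp
  rw [h3, ← intervalIntegral.integral_of_le (by norm_num)]
  unfold Gc
  refine intervalIntegral.integral_congr fun τ hτ => ?_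
  rw [Set.uIcc_of_le (by norm_num)] at hτ
  have h5 : 0 ≤ 1 - τ ^ 2 := by nlinarith [hτ.1, hτ.2]
  show ee (τ * r) * ((π / (1 + δ) * (max (1 - τ ^ 2) 0) ^ (1 + δ) : ℝ) : ℂ) = (Gf δ τ : ℂ) * ee (τ * r)
  rw [max_eq_left h5, mul_comm]
  rfl

theorem norm_e3_eq : ‖e3‖ = 1 := by
  have h := norm_J_sq ((0 : E2), (1 : ℝ))
  have h2 : ‖e3‖ ^ 2 = 1 := by
    rw [e3, h]
    simp
  nlinarith [norm_nonneg e3]

/-- **BR-K5** rotation.  `reflection_sub` gives `A : E3 ≃ₗᵢ[ℝ] E3` with `A w = ‖w‖ • e3` (`‖e3‖ = 1`); `Real.fourierIntegralInv_comp_linearIsometry`; `mdel δ ∘ A = mdel δ`. -/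
theorem fourierInv_mdel {δ : ℝ} (hδ : 0 < δ) (w : E3) : 𝓕⁻ (mdel δ) w = Kbr δ w := by
  have hn : ‖w‖ = ‖‖w‖ • e3‖ := by
    rw [norm_smul, norm_e3_eq, mul_one, norm_norm]
  have hA := Submodule.reflection_sub hn
  generalize (ℝ ∙ (w - ‖w‖ • e3))ᗮ.reflection = A at hA
  have h1 : mdel δ ∘ A = mdel δ := by
    funext ξ
    simp only [Function.comp, mdel, LinearIsometryEquiv.norm_map]
  have h2 := Real.fourierInv_comp_linearIsometry A (mdel δ) w
  rw [h1, hA, fourierInv_mdel_axis hδ] at h2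
  exact h2

theorem ee_add_eq (a b : ℝ) : ee (a + b) = ee a * ee b := by
  unfold ee
  rw [← Complex.exp_add]
  congr 1
  push_cast
  ring

/-- the Fourier transform in the normal form of `ee` -/
theorem fourier_ee {V : Type*} [NormedAddCommGroup V] [InnerProductSpace ℝ V] [MeasurableSpace V] [BorelSpace V]
    [FiniteDimensional ℝ V] (f : V → ℂ) (w : V) : 𝓕 f w = ∫ v, ee (-⟪v, w⟫_ℝ) * f v := by
  rw [Real.fourier_eq']
  refine integral_congr_ae (Filter.Eventually.of_forall fun v => ?_)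
  simp only [ee, smul_eq_mul]
  congr 3
  push_cast
  ring

/-- **BR-K6** Fubini (`integral_integral_swap`, integrable majorant `‖mdel δ ξ‖ * ‖f y‖`):
`𝓕⁻ (m · 𝓕 f) x = ∫ ξ, 𝐞⟪ξ,x⟫ m ξ ∫ y, 𝐞(-⟪y,ξ⟫) f y = ∫ y, (∫ ξ, 𝐞⟪ξ, x - y⟫ m ξ) f y`. -/
theorem br_conv_aux {δ : ℝ} (hδ : 0 < δ) (f : SchwartzMap E3 ℂ) (x : E3) :
    𝓕⁻ (fun ξ => mdel δ ξ * 𝓕 (f : E3 → ℂ) ξ) x = ∫ y, 𝓕⁻ (mdel δ) (x - y) * f y := by
  simp only [fourierInv_ee, fourier_ee]
  have hL : ∀ ξ : E3, ee ⟪ξ, x⟫_ℝ * (mdel δ ξ * ∫ y, ee (-⟪y, ξ⟫_ℝ) * f y)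
      = ∫ y, ee ⟪ξ, x - y⟫_ℝ * (mdel δ ξ * f y) := fun ξ => by
    rw [← integral_const_mul, ← integral_const_mul]
    refine integral_congr_ae (Filter.Eventually.of_forall fun y => ?_)
    show ee ⟪ξ, x⟫_ℝ * (mdel δ ξ * (ee (-⟪y, ξ⟫_ℝ) * f y)) = ee ⟪ξ, x - y⟫_ℝ * (mdel δ ξ * f y)
    rw [inner_sub_right, sub_eq_add_neg, ee_add_eq, real_inner_comm y ξ]
    ring
  have hR : ∀ y : E3, (∫ ξ, ee ⟪ξ, x - y⟫_ℝ * mdel δ ξ) * f y
      = ∫ ξ, ee ⟪ξ, x - y⟫_ℝ * (mdel δ ξ * f y) := fun y => by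
    rw [← integral_mul_const]
    refine integral_congr_ae (Filter.Eventually.of_forall fun ξ => ?_)
    show ee ⟪ξ, x - y⟫_ℝ * mdel δ ξ * f y = _
    ring
  simp only [hL, hR]
  refine integral_integral_swap ?_
  have h1 : Integrable (fun z : E3 × E3 => mdel δ z.1 * f z.2) (volume.prod volume) :=
    (mdel_integrable hδ).mul_prod f.integrable
  refine h1.bdd_mul (c := 1) ?_ ?_
  · refine (continuous_ee.comp ?_).aestronglyMeasurable
    exact continuous_fst.inner (continuous_const.sub continuous_snd)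
  · exact Filter.Eventually.of_forall fun z => (norm_ee _).le

theorem br_conv {δ : ℝ} (hδ : 0 < δ) (f : SchwartzMap E3 ℂ) (x : E3) : bochnerRiesz δ f x = kop (Kbr δ) f x := by
  have h := br_conv_aux hδ f x
  simp only [fourierInv_mdel hδ] at h
  exact h

end Claimed.Agent.R255.BR
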