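import Claimed.Agent.R255.BR.Conv

/-!
# R255 / BR / Cut : the cutoffs `bcut`, `phi0`, the truncated kernels                     (architect helper9)
-/

set_option autoImplicit false

namespace Claimed.Agent.R255.BR

open MeasureTheory Complex
open scoped ENNReal ContDiff InnerProductSpace Real

theorem bcut_one {u : ℝ} (hu : u ≤ 1) : bcut u = 1 := by
  unfold bcut; exact Real.smoothTransition.one_of_one_le (by linarith)

theorem bcut_zero {u : ℝ} (hu : 4 ≤ u) : bcut u = 0 := by
  unfold bcut; exact Real.smoothTransition.zero_of_nonpos (by linarith)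

theorem bcut_nonneg (u : ℝ) : 0 ≤ bcut u := Real.smoothTransition.nonneg _

theorem bcut_le_one (u : ℝ) : bcut u ≤ 1 := Real.smoothTransition.le_one _

theorem bcut_contDiff : ContDiff ℝ ∞ bcut := by
  unfold bcut; exact Real.smoothTransition.contDiff.comp (by fun_prop)

theorem phi0_contDiff : ContDiff ℝ ∞ phi0 := by
  unfold phi0; exact bcut_contDiff.sub (bcut_contDiff.comp (by fun_prop))

theorem phi0_supp {u : ℝ} (hu : phi0 u ≠ 0) : 1 / 4 ≤ u ∧ u ≤ 4 := by
  constructor
  · by_contra h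
    push Not at h
    exact hu (by unfold phi0; rw [bcut_one (by linarith), bcut_one (by linarith), sub_self])
  · by_contra h
    push Not at h
    exact hu (by unfold phi0; rw [bcut_zero (by linarith), bcut_zero (by linarith), sub_self])

theorem Kbr_continuous {δ : ℝ} (hδ : 0 < δ) : Continuous (Kbr δ) := (Gc_continuous δ hδ).comp continuous_norm

theorem ck_of_cut {δ : ℝ} (hδ : 0 < δ) {b : ℝ → ℝ} (hb : Continuous b) {R : ℝ} (hR : ∀ u, R ≤ u → b u = 0) :
    CK (fun w : E3 => (b (‖w‖ ^ 2) : ℂ) * Kbr δ w) := by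
  refine ⟨(Complex.continuous_ofReal.comp (hb.comp (by fun_prop))).mul (Kbr_continuous hδ), ?_⟩
  refine HasCompactSupport.intro (isCompact_closedBall (0 : E3) (Real.sqrt (max R 0))) ?_
  intro w hw
  have : R ≤ ‖w‖ ^ 2 := by
    by_contra h
    push Not at h
    apply hw
    rw [mem_closedBall_zero_iff]
    apply Real.le_sqrt_of_sq_le
    exact h.le.trans (le_max_left _ _)
  rw [hR _ this]; simp

theorem K0_ck {δ : ℝ} (hδ : 0 < δ) : CK (K0 δ) :=
  ck_of_cut hδ bcut_contDiff.continuous (R := 4) fun _ hu => bcut_zero hu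

theorem shk_ck {δ : ℝ} (hδ : 0 < δ) (j : ℕ) : CK (shk δ j) := by
  have h4 : (0 : ℝ) < 4 ^ j := by positivity
  refine ck_of_cut hδ (b := fun u => phi0 (u / 4 ^ j)) (phi0_contDiff.continuous.comp (by fun_prop)) (R := 4 * 4 ^ j + 1) ?_
  intro u hu
  by_contra h
  have := (phi0_supp h).2
  rw [div_le_iff₀ h4] at this
  linarith

/-- telescoping -/
theorem K0_add_sum (δ : ℝ) (J : ℕ) (w : E3) :
    K0 δ w + ∑ j ∈ Finset.Icc 1 J, shk δ j w = (bcut (‖w‖ ^ 2 / 4 ^ J) : ℂ) * Kbr δ w := by
  induction J with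
  | zero => simp [K0]
  | succ J ih =>
    rw [Finset.sum_Icc_succ_top (by omega), ← add_assoc, ih]
    unfold shk phi0
    have : 4 * (‖w‖ ^ 2 / 4 ^ (J + 1)) = ‖w‖ ^ 2 / 4 ^ J := by
      rw [pow_succ]; field_simp
      ring
    rw [this]
    push_cast
    ring

end Claimed.Agent.R255.BR
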