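import Claimed.Agent.R255.Osc.Contract

/-!
# R255 / BR / Defs : END255 = `Osc.OSC ⟹ S0495` (BR paper Sec. 12, l.190-375)      (architect helper9)   -- KEEP

Vocabulary of the whole package.   `kop k f = k * f` (convolution on `ℝ³`),   `KBd k C` : `‖k * f‖₃ ≤ C ‖f‖₃`,
`rk α μ w = e^{2π i μ |w|} α(|w|²)` : the radial oscillating kernels,   `Gc δ r = ∫_{-1}^{1} G_δ(τ) e^{2π i τ r} dτ` : the radial profile of the
Bochner-Riesz kernel,   `bcut`, `phi0` : the dyadic partition of unity in the variable `u = |x|²`.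

ROUTE (differs from the paper, see report `br-read` of helper9):
* `Tools.lean`  Minkowski's integral inequality at `p = 3`, Young, algebra of `KBd`, dilations, superpositions.
* `Geo*.lean`   `Osc.OSC ⟹ unit shell bound`  `KBd (rk α μ) (C (1+|μ|)^{-1+ν})`.
* `Ker*.lean`   `bochnerRiesz δ f = kop (Gc δ ‖·‖) f`, and  unit shell bound `⟹` dyadic shells of the kernel have norm `≤ C q^j`, `q < 1`.
* `Top.lean`    the sum.
-/

set_option autoImplicit false

namespace Claimed.Agent.R255.BR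

open MeasureTheory Complex
open scoped ENNReal ContDiff InnerProductSpace Real

/-- the plane -/
abbrev E2 : Type := EuclideanSpace ℝ (Fin 2)
/-- the space -/
abbrev E3 : Type := EuclideanSpace ℝ (Fin 3)

/-- the convolution operator with kernel `k` -/
noncomputable def kop (k f : E3 → ℂ) (z : E3) : ℂ := ∫ y, k (z - y) * f y

/-- `k` is an `L³` convolution kernel of norm `≤ C` -/
def KBd (k : E3 → ℂ) (C : ℝ) : Prop :=
  ∀ f : E3 → ℂ, MemLp f 3 volume → eLpNorm (kop k f) 3 volume ≤ ENNReal.ofReal C * eLpNorm f 3 volume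

/-- continuous kernels with compact support -/
structure CK (k : E3 → ℂ) : Prop where
  cont : Continuous k
  supp : HasCompactSupport k

/-- `e^{2π i θ}` (same normal form as `Real.fourierChar_apply`) -/
noncomputable def ee (θ : ℝ) : ℂ := cexp (((2 * π * θ : ℝ) : ℂ) * I)

/-- the radial oscillating kernel `e^{2π i μ |w|} α(|w|²)` -/
noncomputable def rk (α : ℝ → ℂ) (μ : ℝ) (w : E3) : ℂ := ee (μ * ‖w‖) * α (‖w‖ ^ 2)

/-- amplitudes (in the variable `u = |w|²`) supported in the shell `1/2 ≤ |w| ≤ 2` -/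
structure ShellAmp (α : ℝ → ℂ) : Prop where
  smooth : ContDiff ℝ ∞ α
  supp : ∀ u, α u ≠ 0 → 1 / 4 ≤ u ∧ u ≤ 4

/-- **the unit shell bound** (BR (12.9)) for all fixed radial amplitudes -/
def UnitShell : Prop :=
  ∀ α : ℝ → ℂ, ShellAmp α → ∀ ν : ℝ, 0 < ν → ν < 1 → ∃ C : ℝ, 0 ≤ C ∧ ∀ μ : ℝ, KBd (rk α μ) (C * (1 + |μ|) ^ (-1 + ν))

/-- `G_δ(τ) = π/(1+δ) (1-τ²)^{1+δ}` (used for `|τ| ≤ 1` only) -/
noncomputable def Gf (δ τ : ℝ) : ℝ := π / (1 + δ) * (1 - τ ^ 2) ^ (1 + δ)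

/-- the radial profile of the Bochner-Riesz kernel -/
noncomputable def Gc (δ r : ℝ) : ℂ := ∫ τ in (-1 : ℝ)..1, (Gf δ τ : ℂ) * ee (τ * r)

/-- the Bochner-Riesz kernel -/
noncomputable def Kbr (δ : ℝ) (w : E3) : ℂ := Gc δ ‖w‖

/-- smooth cutoff: `1` on `u ≤ 1`, `0` on `u ≥ 4` -/
noncomputable def bcut (u : ℝ) : ℝ := Real.smoothTransition ((4 - u) / 3)

/-- the dyadic bump, supported in `1/4 ≤ u ≤ 4` -/
noncomputable def phi0 (u : ℝ) : ℝ := bcut u - bcut (4 * u)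

/-- the core of the kernel -/
noncomputable def K0 (δ : ℝ) (w : E3) : ℂ := (bcut (‖w‖ ^ 2) : ℂ) * Kbr δ w

/-- the `j`-th dyadic shell `|w| ~ 2^j` of the kernel -/
noncomputable def shk (δ : ℝ) (j : ℕ) (w : E3) : ℂ := (phi0 (‖w‖ ^ 2 / 4 ^ j) : ℂ) * Kbr δ w

end Claimed.Agent.R255.BR
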