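import Claimed.Agent.R255.BR.Tools

/-!
# R255 / BR / Grid : localisation to cubes of side `1/100` with sharp cutoffs (leaf BR-L3)          (helper9)
-/

set_option autoImplicit false

namespace Claimed.Agent.R255.BR

open MeasureTheory Complex
open scoped ENNReal ContDiff InnerProductSpace Real

/-- the index set of the grid -/
abbrev Z3 : Type := Fin 3 → ℤ

/-- the cell of a point -/
noncomputable def cell (x : E3) : Z3 := fun i => ⌊100 * x i⌋

/-- the cubes -/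
def Qc (j : Z3) : Set E3 := cell ⁻¹' {j}

/-- the corner of a cube -/
noncomputable def ptc (j : Z3) : E3 := WithLp.toLp 2 (fun i => (j i : ℝ) / 100)

/-- a finite box of relevant differences (kept abstract: a concrete `Finset` of `421³` elements must never be unfolded) -/
theorem exists_gbox : ∃ box : Finset Z3, ∀ Δ : Z3, (∀ i, |Δ i| ≤ 210) → Δ ∈ box := by
  refine ⟨Fintype.piFinset (fun _ => Finset.Icc (-210) 210), fun Δ h => ?_⟩
  rw [Fintype.mem_piFinset]
  intro i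
  rw [Finset.mem_Icc]
  exact abs_le.1 (h i)

theorem measurable_cell : Measurable cell := by
  refine measurable_pi_iff.2 fun i => ?_
  have h : Measurable fun x : E3 => 100 * x i := by fun_prop
  exact h.floor

theorem measurableSet_Qc (j : Z3) : MeasurableSet (Qc j) := measurable_cell (measurableSet_singleton j)

theorem Qc_disjoint : Pairwise (Function.onFun Disjoint Qc) := by
  intro i j hij
  refine Set.disjoint_left.2 fun x hx hx' => hij ?_
  have h1 : cell x = i := hx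
  have h2 : cell x = j := hx'
  rw [← h1, h2]

theorem mem_Qc_cell (y : E3) : y ∈ Qc (cell y) := by
  show cell y ∈ ({cell y} : Set Z3)
  exact Set.mem_singleton _

theorem iUnion_Qc : ⋃ j, Qc j = Set.univ := Set.eq_univ_of_forall fun x => Set.mem_iUnion.2 ⟨cell x, mem_Qc_cell x⟩

theorem mem_Qc_coord {x : E3} {j : Z3} (h : x ∈ Qc j) (i : Fin 3) : (j i : ℝ) ≤ 100 * x i ∧ 100 * x i < j i + 1 := by
  have h1 : cell x = j := h
  have h2 : ⌊100 * x i⌋ = j i := congrFun h1 i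
  rw [← h2]
  exact ⟨Int.floor_le _, Int.lt_floor_add_one _⟩

theorem norm_sub_ptc_le {x : E3} {j : Z3} (h : x ∈ Qc j) : ‖x - ptc j‖ ≤ 1 / 50 := by
  have h0 : ‖x - ptc j‖ ^ 2 ≤ (1 / 50) ^ 2 := by
    rw [EuclideanSpace.norm_sq_eq, Fin.sum_univ_three]
    have hc : ∀ i : Fin 3, ‖(x - ptc j) i‖ ^ 2 ≤ 1 / 10000 := by
      intro i
      obtain ⟨h1, h2⟩ := mem_Qc_coord h i
      have : (x - ptc j) i = x i - (j i : ℝ) / 100 := by simp [ptc]
      rw [this, Real.norm_eq_abs, sq_abs]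
      nlinarith
    have := hc 0; have := hc 1; have := hc 2
    norm_num at *
    linarith
  exact abs_le_of_sq_le_sq' h0 (by norm_num) |>.2

theorem lintegral_eq_tsum_Qc (G : E3 → ℝ≥0∞) : ∫⁻ x, G x = ∑' j, ∫⁻ x in Qc j, G x := by
  rw [← lintegral_iUnion measurableSet_Qc Qc_disjoint, iUnion_Qc, Measure.restrict_univ]

theorem eLpNorm_three_pow {X : Type*} [MeasurableSpace X] (g : X → ℂ) (μ : Measure X) :
    (eLpNorm g 3 μ) ^ (3 : ℝ) = ∫⁻ x, ‖g x‖ₑ ^ (3 : ℝ) ∂μ := by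
  have h3 : (3 : ℝ≥0∞).toReal = 3 := by norm_num
  have h := eLpNorm_eq_lintegral_rpow_enorm_toReal (p := 3) (f := g) (μ := μ) (by norm_num) (by norm_num)
  rw [h, h3, ← ENNReal.rpow_mul]
  have : (1 / 3 : ℝ) * 3 = 1 := by norm_num
  rw [this, ENNReal.rpow_one]

/-- if `z ∈ Q j`, `y ∈ Q j'` are at distance `≤ 2` then `j - j'` is in the box -/
theorem sub_abs_le {z y : E3} {j j' : Z3} (hz : z ∈ Qc j) (hy : y ∈ Qc j') (h : ‖z - y‖ ≤ 2) (i : Fin 3) : |(j - j') i| ≤ 210 := by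
  obtain ⟨h1, h2⟩ := mem_Qc_coord hz i
  obtain ⟨h3, h4⟩ := mem_Qc_coord hy i
  have h5 : ‖(z - y) i‖ ≤ 2 := (PiLp.norm_apply_le (z - y) i).trans h
  have h6 : (z - y) i = z i - y i := by simp
  rw [h6, Real.norm_eq_abs, abs_le] at h5
  rw [Pi.sub_apply, abs_le]
  constructor
  · have : (-210 : ℝ) ≤ ((j i - j' i : ℤ) : ℝ) := by push_cast; linarith [h5.1]
    exact_mod_cast this
  · have : ((j i - j' i : ℤ) : ℝ) ≤ (210 : ℝ) := by push_cast; linarith [h5.2]
    exact_mod_cast this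

section core
variable {k : E3 → ℂ} {C : ℝ} {gbox : Finset Z3}

/-- on a cube only the neighbouring cubes contribute -/
theorem kop_eq_sum_on_Qc (hbox : ∀ Δ : Z3, (∀ i, |Δ i| ≤ 210) → Δ ∈ gbox) (hk : CK k) (hs : ∀ w, k w ≠ 0 → ‖w‖ ≤ 2) {f : E3 → ℂ} (hf : MemLp f 3 volume) {j : Z3} {z : E3}
    (hz : z ∈ Qc j) : kop k f z = ∑ Δ ∈ gbox, kop k ((Qc (j - Δ)).indicator f) z := by
  unfold kop
  rw [← integral_finsetSum _ (fun Δ _ => kop_integrable hk (hf.indicator (measurableSet_Qc _)) z)]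
  refine integral_congr_ae (Filter.Eventually.of_forall fun y => ?_)
  show k (z - y) * f y = ∑ Δ ∈ gbox, k (z - y) * (Qc (j - Δ)).indicator f y
  rw [← Finset.mul_sum]
  by_cases hky : k (z - y) = 0
  · rw [hky, zero_mul, zero_mul]
  · refine congrArg (fun t => k (z - y) * t) ?_
    have hmem : j - cell y ∈ gbox := hbox _ (sub_abs_le hz (mem_Qc_cell y) (hs _ hky))
    rw [Finset.sum_eq_single (j - cell y)]
    · rw [Set.indicator_of_mem]
      show cell y = j - (j - cell y)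
      abel
    · intro Δ _ hΔ
      rw [Set.indicator_of_notMem]
      intro hy
      apply hΔ
      have : cell y = j - Δ := hy
      rw [this]; abel
    · intro h; exact absurd hmem h

/-- one pair of cubes -/
theorem pair_on_Qc (hs : ∀ w, k w ≠ 0 → 1 / 2 ≤ ‖w‖ ∧ ‖w‖ ≤ 2)
    (hP : ∀ p q : E3, 9 / 20 ≤ ‖q - p‖ → ‖q - p‖ ≤ 41 / 20 → ∀ f : E3 → ℂ, MemLp f 3 volume → (∀ y, f y ≠ 0 → ‖y - p‖ ≤ 1 / 50) →
      eLpNorm (kop k f) 3 (volume.restrict (Metric.closedBall q (1 / 50))) ≤ ENNReal.ofReal C * eLpNorm f 3 volume)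
    {f : E3 → ℂ} (hf : MemLp f 3 volume) (j j' : Z3) :
    eLpNorm (kop k ((Qc j').indicator f)) 3 (volume.restrict (Qc j)) ≤ ENNReal.ofReal C * eLpNorm f 3 (volume.restrict (Qc j')) := by
  rw [← eLpNorm_indicator_eq_eLpNorm_restrict (measurableSet_Qc j')]
  by_cases h : 9 / 20 ≤ ‖ptc j - ptc j'‖ ∧ ‖ptc j - ptc j'‖ ≤ 41 / 20
  · refine (eLpNorm_mono_measure _ (Measure.restrict_mono (fun x hx => ?_) le_rfl)).trans
      (hP (ptc j') (ptc j) h.1 h.2 _ (hf.indicator (measurableSet_Qc j')) ?_)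
    · rw [Metric.mem_closedBall, dist_eq_norm]; exact norm_sub_ptc_le hx
    · intro y hy
      have : y ∈ Qc j' := by
        by_contra hn
        exact hy (Set.indicator_of_notMem hn f)
      exact norm_sub_ptc_le this
  · have hz : ∀ z ∈ Qc j, kop k ((Qc j').indicator f) z = 0 := by
      intro z hz
      unfold kop
      refine integral_eq_zero_of_ae (Filter.Eventually.of_forall fun y => ?_)
      show k (z - y) * (Qc j').indicator f y = 0
      by_cases hy : y ∈ Qc j'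
      · have hk0 : k (z - y) = 0 := by
          by_contra hk0
          obtain ⟨h1, h2⟩ := hs _ hk0
          have h3 := norm_sub_ptc_le hz
          have h4 := norm_sub_ptc_le hy
          have e : ptc j - ptc j' = (z - y) - (z - ptc j) + (y - ptc j') := by abel
          have e' : z - y = (ptc j - ptc j') + (z - ptc j) - (y - ptc j') := by abel
          apply h
          constructor
          · have : ‖z - y‖ ≤ ‖ptc j - ptc j'‖ + ‖z - ptc j‖ + ‖y - ptc j'‖ := by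
              conv_lhs => rw [e']
              exact (norm_sub_le _ _).trans (add_le_add_left (norm_add_le _ _) _)
            linarith
          · have : ‖ptc j - ptc j'‖ ≤ ‖z - y‖ + ‖z - ptc j‖ + ‖y - ptc j'‖ := by
              conv_lhs => rw [e]
              exact (norm_add_le _ _).trans (add_le_add_left (norm_sub_le _ _) _)
            linarith
        rw [hk0, zero_mul]
      · rw [Set.indicator_of_notMem hy, mul_zero]
    have h0 : kop k ((Qc j').indicator f) =ᵐ[volume.restrict (Qc j)] (fun _ => (0 : ℂ)) := by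
      filter_upwards [ae_restrict_mem (measurableSet_Qc j)] with z hz'
      exact hz z hz'
    rw [eLpNorm_congr_ae h0]
    simp

theorem grid_core (hbox : ∀ Δ : Z3, (∀ i, |Δ i| ≤ 210) → Δ ∈ gbox) (hk : CK k) (hs : ∀ w, k w ≠ 0 → 1 / 2 ≤ ‖w‖ ∧ ‖w‖ ≤ 2)
    (hP : ∀ p q : E3, 9 / 20 ≤ ‖q - p‖ → ‖q - p‖ ≤ 41 / 20 → ∀ f : E3 → ℂ, MemLp f 3 volume → (∀ y, f y ≠ 0 → ‖y - p‖ ≤ 1 / 50) →
      eLpNorm (kop k f) 3 (volume.restrict (Metric.closedBall q (1 / 50))) ≤ ENNReal.ofReal C * eLpNorm f 3 volume) :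
    KBd k ((gbox.card : ℝ) * C) := by
  intro f hf
  -- one output cube
  have h1 : ∀ j : Z3, eLpNorm (kop k f) 3 (volume.restrict (Qc j)) ≤
      ENNReal.ofReal C * ∑ Δ ∈ gbox, eLpNorm f 3 (volume.restrict (Qc (j - Δ))) := by
    intro j
    have e : kop k f =ᵐ[volume.restrict (Qc j)] (fun z => ∑ Δ ∈ gbox, kop k ((Qc (j - Δ)).indicator f) z) := by
      filter_upwards [ae_restrict_mem (measurableSet_Qc j)] with z hz
      exact kop_eq_sum_on_Qc hbox hk (fun w hw => (hs w hw).2) hf hz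
    rw [eLpNorm_congr_ae e, Finset.mul_sum]
    have e2 : (fun z => ∑ Δ ∈ gbox, kop k ((Qc (j - Δ)).indicator f) z) = ∑ Δ ∈ gbox, kop k ((Qc (j - Δ)).indicator f) := by
      funext z; rw [Finset.sum_apply]
    rw [e2]
    refine (eLpNorm_sum_le (fun Δ _ => (kop_continuous hk (hf.indicator (measurableSet_Qc _))).aestronglyMeasurable) (by norm_num)).trans ?_
    exact Finset.sum_le_sum fun Δ _ => pair_on_Qc hs hP hf j (j - Δ)
  have h2 : ∀ j : Z3, ∫⁻ x in Qc j, ‖kop k f x‖ₑ ^ (3 : ℝ) ≤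
      (ENNReal.ofReal C) ^ (3 : ℝ) * ((gbox.card : ℝ≥0∞) ^ (2 : ℝ) * ∑ Δ ∈ gbox, ∫⁻ x in Qc (j - Δ), ‖f x‖ₑ ^ (3 : ℝ)) := by
    intro j
    rw [← eLpNorm_three_pow]
    refine (ENNReal.rpow_le_rpow (h1 j) (by norm_num)).trans ?_
    rw [ENNReal.mul_rpow_of_nonneg _ _ (by norm_num)]
    refine mul_le_mul_right ?_ _
    refine (ENNReal.rpow_sum_le_const_mul_sum_rpow gbox _ (by norm_num : (1 : ℝ) ≤ 3)).trans ?_
    have : (3 : ℝ) - 1 = 2 := by norm_num
    rw [this]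
    refine mul_le_mul_right (le_of_eq ?_) _
    exact Finset.sum_congr rfl fun Δ _ => eLpNorm_three_pow _ _
  have h3 : ∑' j : Z3, ∑ Δ ∈ gbox, ∫⁻ x in Qc (j - Δ), ‖f x‖ₑ ^ (3 : ℝ) = (gbox.card : ℝ≥0∞) * ∫⁻ x, ‖f x‖ₑ ^ (3 : ℝ) := by
    rw [Summable.tsum_finsetSum (fun _ _ => ENNReal.summable)]
    have : ∀ Δ ∈ gbox, ∑' j : Z3, ∫⁻ x in Qc (j - Δ), ‖f x‖ₑ ^ (3 : ℝ) = ∫⁻ x, ‖f x‖ₑ ^ (3 : ℝ) := by
      intro Δ _
      rw [lintegral_eq_tsum_Qc]
      exact (Equiv.subRight Δ).tsum_eq (fun i => ∫⁻ x in Qc i, ‖f x‖ₑ ^ (3 : ℝ))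
    rw [Finset.sum_congr rfl this, Finset.sum_const, nsmul_eq_mul]
  have h4 : (eLpNorm (kop k f) 3 volume) ^ (3 : ℝ) ≤ (ENNReal.ofReal ((gbox.card : ℝ) * C) * eLpNorm f 3 volume) ^ (3 : ℝ) := by
    rw [eLpNorm_three_pow, lintegral_eq_tsum_Qc]
    refine (ENNReal.tsum_le_tsum h2).trans (le_of_eq ?_)
    rw [ENNReal.tsum_mul_left, ENNReal.tsum_mul_left, h3, ENNReal.mul_rpow_of_nonneg _ _ (by norm_num), eLpNorm_three_pow,
      ENNReal.ofReal_mul (by positivity), ENNReal.mul_rpow_of_nonneg _ _ (by norm_num), ENNReal.ofReal_natCast]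
    have : (gbox.card : ℝ≥0∞) ^ (3 : ℝ) = (gbox.card : ℝ≥0∞) ^ (2 : ℝ) * (gbox.card : ℝ≥0∞) := by
      have h32 : (3 : ℝ) = 2 + 1 := by norm_num
      rw [h32, ENNReal.rpow_add_of_nonneg _ _ (by norm_num) (by norm_num), ENNReal.rpow_one]
    rw [this]
    ring
  exact (ENNReal.rpow_le_rpow_iff (by norm_num : (0 : ℝ) < 3)).1 h4

end core

end Claimed.Agent.R255.BR
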