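import Claimed.Agent.R255.BR.Cut

/-!
# R255 / BR / Gt : the globally elliptic modification of `g(q) = √(1+|q|²)`                 (architect helper9)

BR paper l.290-345, simplified (no Gevrey bounds are needed in `Osc.OSC`):  `g̃(q) = 1 + ∫_0^{|q|²} kf`,  `kf = 1/2 + bcut (k0 - 1/2)`, `k0(u) = 1/(2√(1+u))`.
`∇g̃ = Nt`, `Nt q = 2 kf(|q|²) q`,  `D Nt(q) a = 2 kf a + 4 kf' ⟪q,a⟫ q`; `Nt q = q` for `|q| ≥ 2`.
Leaves **BR-G\***.  Statements frozen, edit in place.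
-/

set_option autoImplicit false

namespace Claimed.Agent.R255.BR

open MeasureTheory Complex
open scoped ENNReal ContDiff InnerProductSpace Real

noncomputable def k0 (u : ℝ) : ℝ := 1 / (2 * Real.sqrt (1 + u))

noncomputable def kf (u : ℝ) : ℝ := 1 / 2 + bcut u * (k0 u - 1 / 2)

theorem kf_eq_k0 {u : ℝ} (hu : u ≤ 1) : kf u = k0 u := by unfold kf; rw [bcut_one hu]; ring

theorem kf_eq_half {u : ℝ} (hu : 4 ≤ u) : kf u = 1 / 2 := by unfold kf; rw [bcut_zero hu]; ring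

/-- **BR-G1a** -/
theorem kf_contDiffOn : ContDiffOn ℝ ∞ kf (Set.Ioi (-1)) := by
  have h1 : ContDiffOn ℝ ∞ (fun u : ℝ => Real.sqrt (1 + u)) (Set.Ioi (-1)) := by
    refine ContDiffOn.sqrt (by fun_prop) fun x hx => ?_
    have : -1 < x := hx
    linarith
  have h2 : ContDiffOn ℝ ∞ k0 (Set.Ioi (-1)) := by
    unfold k0
    refine ContDiffOn.div contDiffOn_const (contDiffOn_const.mul h1) fun x hx => ?_
    have hx' : -1 < x := hx
    have : 0 < Real.sqrt (1 + x) := Real.sqrt_pos.2 (by linarith)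
    positivity
  unfold kf
  exact contDiffOn_const.add (bcut_contDiff.contDiffOn.mul (h2.sub contDiffOn_const))

/-- derivative of `k0` -/
theorem kf_k0_hasDerivAt {u : ℝ} (hu : -1 < u) :
    HasDerivAt k0 (-(1 / (4 * (Real.sqrt (1 + u)) ^ 3))) u := by
  have hs : 0 < Real.sqrt (1 + u) := Real.sqrt_pos.2 (by linarith)
  have h1 : HasDerivAt (fun u : ℝ => 1 + u) 1 u := by
    simpa using (hasDerivAt_id u).const_add 1
  have h2 := h1.sqrt (by linarith)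
  have h3 := (h2.const_mul 2).inv (by positivity)
  have e1 : k0 = fun u => (2 * Real.sqrt (1 + u))⁻¹ := by
    funext v
    unfold k0
    rw [one_div]
  have e2 : -(1 / (4 * (Real.sqrt (1 + u)) ^ 3)) =
      -(2 * (1 / (2 * Real.sqrt (1 + u)))) / (2 * Real.sqrt (1 + u)) ^ 2 := by
    field_simp
    ring
  rw [e1, e2]
  exact h3

/-- derivative of `kf` -/
theorem kf_hasDerivAt {u : ℝ} (hu : -1 < u) :
    HasDerivAt kf (deriv bcut u * (k0 u - 1 / 2) + bcut u * (-(1 / (4 * (Real.sqrt (1 + u)) ^ 3)))) u := by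
  have hb : HasDerivAt bcut (deriv bcut u) u :=
    ((bcut_contDiff.differentiable (by simp)) u).hasDerivAt
  have h1 := (hb.mul ((kf_k0_hasDerivAt hu).sub_const (1 / 2))).const_add (1 / 2)
  exact h1

theorem kf_bcut_deriv_nonpos (u : ℝ) : deriv bcut u ≤ 0 := by
  refine Antitone.deriv_nonpos ?_
  intro a b hab
  unfold bcut
  exact Real.smoothTransition.monotone (by linarith)

/-- **BR-G1b** ellipticity in one variable.  `kf' = bcut' (k0 - 1/2) + bcut k0'`, `bcut' ≤ 0` (`Real.smoothTransition.monotone`), `k0 ≤ 1/2` for `u ≥ 0`,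
`2 k0 + 4 u k0' = (1+u)^{-3/2}`; so `2 kf + 4 u kf' ≥ (1 - bcut) + bcut (1+u)^{-3/2} ≥ 5^{-3/2} ≥ 1/12` on `[0,4]`, `= 1` on `[4,∞)`; `2 kf = (1 - bcut) + bcut (1+u)^{-1/2}`.
Upper bound: continuity on `[0,4]`. -/
theorem kf_ell : ∃ a1 : ℝ, ∀ u : ℝ, 0 ≤ u → 1 / 12 ≤ 2 * kf u ∧ 2 * kf u ≤ a1 ∧
    1 / 12 ≤ 2 * kf u + 4 * u * deriv kf u ∧ 2 * kf u + 4 * u * deriv kf u ≤ a1 := by
  have hcont : ContinuousOn (fun u => 2 * kf u + 4 * u * deriv kf u) (Set.Icc 0 4) := by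
    have h1 : ContinuousOn kf (Set.Ioi (-1)) := kf_contDiffOn.continuousOn
    have h2 : ContinuousOn (deriv kf) (Set.Ioi (-1)) :=
      kf_contDiffOn.continuousOn_deriv_of_isOpen isOpen_Ioi (by simp)
    have hsub : Set.Icc (0:ℝ) 4 ⊆ Set.Ioi (-1) := fun x hx => lt_of_lt_of_le (by norm_num) hx.1
    exact ((continuousOn_const.mul h1).add ((continuousOn_const.mul continuousOn_id).mul h2)).mono hsub
  obtain ⟨B, hB⟩ := isCompact_Icc.exists_bound_of_continuousOn hcont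
  refine ⟨max B 1, fun u hu => ?_⟩
  have hu1 : -1 < u := by linarith
  have hs1 : 1 ≤ Real.sqrt (1 + u) := by
    rw [show (1:ℝ) = Real.sqrt 1 by simp]
    exact Real.sqrt_le_sqrt (by simp; linarith)
  have hs2 : Real.sqrt (1 + u) ^ 2 = 1 + u := Real.sq_sqrt (by linarith)
  obtain ⟨s, hs⟩ : ∃ s, s = Real.sqrt (1 + u) := ⟨_, rfl⟩
  rw [← hs] at hs1 hs2
  have hs0 : 0 < s := by linarith
  have hb0 := bcut_nonneg u
  have hb1 := bcut_le_one u
  have hk0 : k0 u = 1 / (2 * s) := by rw [hs]; rfl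
  have hd : deriv kf u = deriv bcut u * (k0 u - 1 / 2) + bcut u * (-(1 / (4 * s ^ 3))) := by
    rw [hs]
    exact (kf_hasDerivAt hu1).deriv
  have hbd := kf_bcut_deriv_nonpos u
  have e1 : 2 * kf u = (1 - bcut u) + bcut u * (1 / s) := by
    unfold kf
    rw [hk0]
    field_simp
    ring
  have e2 : 2 * kf u + 4 * u * deriv kf u =
      (1 - bcut u) + bcut u * (1 / s ^ 3) + 4 * u * (deriv bcut u * (1 / (2 * s) - 1 / 2)) := by
    have hu' : u = s ^ 2 - 1 := by linarith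
    rw [e1, hd, hk0, hu']
    field_simp
    ring
  have hinv1 : 1 / s ≤ 1 := by
    rw [div_le_one hs0]
    exact hs1
  have hk2 : 1 / (2 * s) - 1 / 2 ≤ 0 := by
    have : 1 / (2 * s) = (1 / s) / 2 := by
      field_simp
    rw [this]
    linarith
  have hterm : 0 ≤ 4 * u * (deriv bcut u * (1 / (2 * s) - 1 / 2)) :=
    mul_nonneg (by linarith) (mul_nonneg_of_nonpos_of_nonpos hbd hk2)
  have hinv0 : 0 < 1 / s := by positivity
  have hinv30 : 0 < 1 / s ^ 3 := by positivity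
  by_cases h4 : u ≤ 4
  · have hs5 : s ≤ 9 / 4 := by
      by_contra hcon
      push Not at hcon
      nlinarith
    have hs3 : s ^ 3 ≤ 12 := by
      have : s ^ 3 = s * s ^ 2 := by ring
      rw [this, hs2]
      nlinarith
    have hi3 : 1 / 12 ≤ 1 / s ^ 3 := one_div_le_one_div_of_le (by positivity) hs3
    have hi1 : 1 / 12 ≤ 1 / s := one_div_le_one_div_of_le hs0 (by linarith)
    have hBu := hB u ⟨hu, h4⟩
    rw [Real.norm_eq_abs] at hBu
    refine ⟨?_, ?_, ?_, ?_⟩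
    · rw [e1]
      nlinarith
    · rw [e1]
      refine le_trans ?_ (le_max_right _ _)
      nlinarith
    · rw [e2]
      nlinarith
    · exact ((le_abs_self _).trans hBu).trans (le_max_left _ _)
  · push Not at h4
    have hb : bcut u = 0 := bcut_zero h4.le
    have hdz : deriv kf u = 0 := by
      have h5 : kf =ᶠ[nhds u] fun _ => (1 / 2 : ℝ) := by
        filter_upwards [Ioi_mem_nhds h4] with v hv
        exact kf_eq_half (le_of_lt hv)
      rw [h5.deriv_eq]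
      simp
    rw [hdz, kf_eq_half h4.le]
    refine ⟨by norm_num, ?_, by norm_num, ?_⟩
    · refine le_trans ?_ (le_max_right _ _)
      norm_num
    · refine le_trans ?_ (le_max_right _ _)
      norm_num

/-- the gradient of `g̃` -/
noncomputable def Nt (q : E2) : E2 := (2 * kf (‖q‖ ^ 2)) • q

/-- `g̃` -/
noncomputable def gtf (q : E2) : ℝ := 1 + ∫ s in (0 : ℝ)..‖q‖ ^ 2, kf s

theorem kf_contDiffAt {u : ℝ} (hu : -1 < u) : ContDiffAt ℝ ∞ kf u :=
  kf_contDiffOn.contDiffAt (Ioi_mem_nhds hu)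

theorem kf_nsq_gt (q : E2) : -1 < ‖q‖ ^ 2 := by
  have : 0 ≤ ‖q‖ ^ 2 := by positivity
  linarith

/-- **BR-G2a** -/
theorem Nt_contDiff : ContDiff ℝ ∞ Nt := by
  rw [contDiff_iff_contDiffAt]
  intro q
  have h1 : ContDiffAt ℝ ∞ (fun q : E2 => ‖q‖ ^ 2) q := (contDiff_norm_sq ℝ).contDiffAt
  have h2 : ContDiffAt ℝ ∞ (fun q : E2 => kf (‖q‖ ^ 2)) q :=
    ContDiffAt.comp (g := kf) (f := fun q : E2 => ‖q‖ ^ 2) q (kf_contDiffAt (kf_nsq_gt q)) h1
  unfold Nt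
  exact (contDiffAt_const.mul h2).smul contDiffAt_id

/-- **BR-G2b** (FTC `intervalIntegral.integral_hasDerivAt_right` + chain rule with `q ↦ ‖q‖²`). -/
theorem gtf_grad (q : E2) : HasGradientAt gtf (Nt q) q := by
  have hc : ContinuousOn kf (Set.Ioi (-1)) := kf_contDiffOn.continuousOn
  have hq := kf_nsq_gt q
  have hq0 : 0 ≤ ‖q‖ ^ 2 := by positivity
  have hint : IntervalIntegrable kf volume 0 (‖q‖ ^ 2) := by
    refine ContinuousOn.intervalIntegrable (hc.mono ?_)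
    intro x hx
    rw [Set.uIcc_of_le hq0] at hx
    exact lt_of_lt_of_le (by norm_num) hx.1
  have h1 : HasDerivAt (fun u => ∫ s in (0 : ℝ)..u, kf s) (kf (‖q‖ ^ 2)) (‖q‖ ^ 2) :=
    intervalIntegral.integral_hasDerivAt_right hint
      (hc.stronglyMeasurableAtFilter isOpen_Ioi _ hq) (hc.continuousAt (Ioi_mem_nhds hq))
  have h2 : HasFDerivAt (fun q : E2 => ‖q‖ ^ 2) (2 • (innerSL ℝ q)) q := (hasStrictFDerivAt_norm_sq q).hasFDerivAt
  have h3 := (h1.comp_hasFDerivAt q h2).const_add 1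
  rw [hasGradientAt_iff_hasFDerivAt]
  refine h3.congr_fderiv ?_
  ext a
  unfold Nt
  simp only [_root_.smul_apply, innerSL_apply_apply, InnerProductSpace.toDual_apply_apply, inner_smul_left,
    smul_eq_mul, nsmul_eq_mul, conj_trivial]
  push_cast
  ring

theorem gtf_continuous : Continuous gtf :=
  continuous_iff_continuousAt.2 fun q => (gtf_grad q).continuousAt

/-- **BR-G2c** (`∫_0^u k0 = √(1+u) - 1`). -/
theorem gtf_eq {q : E2} (hq : ‖q‖ ≤ 1) : gtf q = Real.sqrt (1 + ‖q‖ ^ 2) := by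
  have hq0 : 0 ≤ ‖q‖ ^ 2 := by positivity
  have hq1 : ‖q‖ ^ 2 ≤ 1 := pow_le_one₀ (norm_nonneg _) hq
  have hc : ContinuousOn kf (Set.Ioi (-1)) := kf_contDiffOn.continuousOn
  have hint : IntervalIntegrable kf volume 0 (‖q‖ ^ 2) := by
    refine ContinuousOn.intervalIntegrable (hc.mono ?_)
    intro x hx
    rw [Set.uIcc_of_le hq0] at hx
    exact lt_of_lt_of_le (by norm_num) hx.1
  have h1 : ∫ s in (0 : ℝ)..‖q‖ ^ 2, kf s = Real.sqrt (1 + ‖q‖ ^ 2) - Real.sqrt (1 + 0) := by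
    refine intervalIntegral.integral_eq_sub_of_hasDerivAt (f := fun s => Real.sqrt (1 + s)) ?_ hint
    intro x hx
    rw [Set.uIcc_of_le hq0] at hx
    have h2 : HasDerivAt (fun u : ℝ => 1 + u) 1 x := by
      simpa using (hasDerivAt_id x).const_add 1
    have h3 := h2.sqrt (by linarith [hx.1])
    rw [kf_eq_k0 (hx.2.trans hq1)]
    exact h3
  unfold gtf
  rw [h1]
  simp

/-- **BR-G2d** -/
theorem fderiv_Nt (q a : E2) :
    fderiv ℝ Nt q a = (2 * kf (‖q‖ ^ 2)) • a + (4 * deriv kf (‖q‖ ^ 2) * ⟪q, a⟫_ℝ) • q := by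
  have hq := kf_nsq_gt q
  have h1 : HasDerivAt kf (deriv kf (‖q‖ ^ 2)) (‖q‖ ^ 2) :=
    ((kf_contDiffAt hq).differentiableAt (by simp)).hasDerivAt
  have h2 : HasFDerivAt (fun q : E2 => ‖q‖ ^ 2) (2 • (innerSL ℝ q)) q := (hasStrictFDerivAt_norm_sq q).hasFDerivAt
  have h3 := (h1.comp_hasFDerivAt q h2).const_mul 2
  have h4 := h3.smul (hasFDerivAt_id q)
  have h5 : HasFDerivAt Nt _ q := h4
  rw [h5.fderiv]
  simp only [_root_.add_apply, _root_.smul_apply, ContinuousLinearMap.smulRight_apply,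
    innerSL_apply_apply, smul_eq_mul, nsmul_eq_mul, id_eq, ContinuousLinearMap.coe_id', Function.comp_apply]
  congr 2
  push_cast
  ring

theorem Nt_symm (q a b : E2) : ⟪fderiv ℝ Nt q a, b⟫_ℝ = ⟪a, fderiv ℝ Nt q b⟫_ℝ := by
  rw [fderiv_Nt, fderiv_Nt, inner_add_left, inner_add_right, inner_smul_left, inner_smul_left, inner_smul_right, inner_smul_right,
    real_inner_comm a q]
  simp only [conj_trivial]
  ring

/-- **BR-G3a** (`⟪D Nt a, a⟫ = 2 kf ‖a‖² + 4 kf' ⟪q,a⟫²`, `0 ≤ ⟪q,a⟫² ≤ ‖q‖² ‖a‖²`, affine in `⟪q,a⟫²`: use `kf_ell` at the two ends). -/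
theorem Nt_ell : ∃ a1 : ℝ, ∀ q a : E2, 1 / 12 * ‖a‖ ^ 2 ≤ ⟪fderiv ℝ Nt q a, a⟫_ℝ ∧ ⟪fderiv ℝ Nt q a, a⟫_ℝ ≤ a1 * ‖a‖ ^ 2 := by
  obtain ⟨a1, h⟩ := kf_ell
  refine ⟨a1, fun q a => ?_⟩
  obtain ⟨h1, h2, h3, h4⟩ := h (‖q‖ ^ 2) (by positivity)
  have e1 : ⟪fderiv ℝ Nt q a, a⟫_ℝ = 2 * kf (‖q‖ ^ 2) * ‖a‖ ^ 2 + 4 * deriv kf (‖q‖ ^ 2) * ⟪q, a⟫_ℝ ^ 2 := by
    rw [fderiv_Nt, inner_add_left, inner_smul_left, inner_smul_left, real_inner_self_eq_norm_sq]
    simp only [conj_trivial]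
    ring
  have ht0 : 0 ≤ ⟪q, a⟫_ℝ ^ 2 := sq_nonneg _
  have ht1 : ⟪q, a⟫_ℝ ^ 2 ≤ ‖q‖ ^ 2 * ‖a‖ ^ 2 := by
    rw [← mul_pow, ← sq_abs]
    exact pow_le_pow_left₀ (abs_nonneg _) (abs_real_inner_le_norm q a) 2
  have ha0 : 0 ≤ ‖a‖ ^ 2 := by positivity
  rw [e1]
  obtain ⟨D, hD⟩ : ∃ D, D = deriv kf (‖q‖ ^ 2) := ⟨_, rfl⟩
  obtain ⟨t, ht⟩ : ∃ t, t = ⟪q, a⟫_ℝ ^ 2 := ⟨_, rfl⟩
  rw [← hD] at h3 h4 ⊢
  rw [← ht] at ht0 ht1 ⊢
  have m1 := mul_le_mul_of_nonneg_right h1 ha0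
  have m2 := mul_le_mul_of_nonneg_right h2 ha0
  have m3 := mul_le_mul_of_nonneg_right h3 ha0
  have m4 := mul_le_mul_of_nonneg_right h4 ha0
  rcases le_total 0 D with hD0 | hD0
  · have k1 : 0 ≤ D * t := mul_nonneg hD0 ht0
    have k2 : D * t ≤ D * (‖q‖ ^ 2 * ‖a‖ ^ 2) := mul_le_mul_of_nonneg_left ht1 hD0
    constructor <;> nlinarith
  · have k1 : D * t ≤ 0 := mul_nonpos_of_nonpos_of_nonneg hD0 ht0
    have k2 : D * (‖q‖ ^ 2 * ‖a‖ ^ 2) ≤ D * t := mul_le_mul_of_nonpos_left ht1 hD0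
    constructor <;> nlinarith

/-- **BR-G3b** all derivatives of `D Nt` are bounded: on the open set `‖q‖ > 2`, `Nt = id`, so `fderiv ℝ Nt` is locally constant; on `closedBall 0 3` continuity
(`ContDiff.continuous_iteratedFDeriv`, `IsCompact.exists_bound_of_continuousOn`). -/
theorem Nt_bound : ∃ A : ℕ → ℝ, ∀ (j : ℕ) (q : E2), ‖iteratedFDeriv ℝ j (fderiv ℝ Nt) q‖ ≤ A j := by
  have hsm : ContDiff ℝ ∞ (fderiv ℝ Nt) := Nt_contDiff.fderiv_right (m := ∞) (by simp)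
  have hB : ∀ j : ℕ, ∃ B : ℝ, ∀ q ∈ Metric.closedBall (0 : E2) 2, ‖iteratedFDeriv ℝ j (fderiv ℝ Nt) q‖ ≤ B := by
    intro j
    exact (isCompact_closedBall (0 : E2) 2).exists_bound_of_continuousOn
      (hsm.continuous_iteratedFDeriv (m := j) (by exact_mod_cast le_top)).continuousOn
  choose B hB' using hB
  refine ⟨fun j => max (B j) 1, fun j q => ?_⟩
  by_cases hq : ‖q‖ ≤ 2
  · exact (hB' j q (by rw [mem_closedBall_zero_iff]; exact hq)).trans (le_max_left _ _)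
  · push Not at hq
    refine le_trans ?_ (le_max_right _ _)
    have hopen : {p : E2 | 2 < ‖p‖} ∈ nhds q := (isOpen_lt continuous_const continuous_norm).mem_nhds hq
    have h1 : fderiv ℝ Nt =ᶠ[nhds q] fun _ => ContinuousLinearMap.id ℝ E2 := by
      have hopen2 : ∀ᶠ p in nhds q, {p : E2 | 2 < ‖p‖} ∈ nhds p := by
        filter_upwards [hopen] with p hp
        exact (isOpen_lt continuous_const continuous_norm).mem_nhds hp
      filter_upwards [hopen2] with p hp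
      have h2 : Nt =ᶠ[nhds p] id := by
        filter_upwards [hp] with x hx
        have hx' : (2:ℝ) < ‖x‖ := hx
        unfold Nt
        rw [kf_eq_half (by nlinarith)]
        simp
      rw [h2.fderiv_eq]
      exact fderiv_id
    rw [(h1.iteratedFDeriv ℝ j).eq_of_nhds]
    rcases Nat.eq_zero_or_pos j with rfl | hj
    · rw [norm_iteratedFDeriv_zero]
      exact ContinuousLinearMap.norm_id_le
    · rw [iteratedFDeriv_const_of_ne hj.ne']
      simp

end Claimed.Agent.R255.BR
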