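import Claimed.Agent.R255.BR.Slice
import Claimed.Agent.R255.BR.Grid

/-!
# R255 / BR / Loc : slices `⟹` a pair of small balls `⟹` the unit shell bound                      (architect helper9)

BR paper l.250-262, 352-362, with SHARP cutoffs (grid of cubes of side `1/100`) and a reflection instead of the smooth angular partition.
Leaves **BR-L\***.  Statements frozen, edit in place.
-/

set_option autoImplicit false

namespace Claimed.Agent.R255.BR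

open MeasureTheory Complex
open scoped ENNReal ContDiff InnerProductSpace Real

/-- the operator in split coordinates -/
noncomputable def locOp (α : ℝ → ℂ) (μ : ℝ) (f : E2 × ℝ → ℂ) (p : E2 × ℝ) : ℂ :=
  ∫ q : E2 × ℝ, ee (μ * Real.sqrt (‖p.1 - q.1‖ ^ 2 + (p.2 - q.2) ^ 2)) * α (‖p.1 - q.1‖ ^ 2 + (p.2 - q.2) ^ 2) * f q

/-- the local estimate in standard position -/
def LocBd (α : ℝ → ℂ) (μ C : ℝ) : Prop :=
  ∀ f : E2 × ℝ → ℂ, MemLp f 3 volume → (∀ q, f q ≠ 0 → ‖q.1‖ ≤ 1 / 10 ∧ |q.2| ≤ 1 / 10) →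
    eLpNorm (locOp α μ f) 3 (volume.restrict (Metric.closedBall (0 : E2) (1 / 10) ×ˢ Set.Icc (2 / 5 : ℝ) 3)) ≤
      ENNReal.ofReal C * eLpNorm f 3 volume

/-- the estimate for a pair of small balls -/
def PairBd (k : E3 → ℂ) (C : ℝ) : Prop :=
  ∀ p q : E3, 9 / 20 ≤ ‖q - p‖ → ‖q - p‖ ≤ 41 / 20 → ∀ f : E3 → ℂ, MemLp f 3 volume → (∀ y, f y ≠ 0 → ‖y - p‖ ≤ 1 / 50) →
    eLpNorm (kop k f) 3 (volume.restrict (Metric.closedBall q (1 / 50))) ≤ ENNReal.ofReal C * eLpNorm f 3 volume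

/-- the amplitude is bounded -/
theorem ShellAmp.exists_bound {α : ℝ → ℂ} (hα : ShellAmp α) : ∃ M : ℝ, ∀ u, ‖α u‖ ≤ M := by
  have hc : HasCompactSupport α := by
    refine HasCompactSupport.intro (isCompact_Icc (a := (1 / 4 : ℝ)) (b := 4)) fun u hu => ?_
    by_contra h
    exact hu (hα.supp u h)
  exact hα.smooth.continuous.bounded_above_of_compact_support hc

/-- the support box of the inputs of `LocBd` -/
def locBox : Set (E2 × ℝ) := Metric.closedBall (0 : E2) (1 / 10) ×ˢ Set.Icc (-(1 / 10) : ℝ) (1 / 10)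

theorem measurableSet_locBox : MeasurableSet locBox :=
  Metric.isClosed_closedBall.measurableSet.prod measurableSet_Icc

theorem locBox_lt_top : volume locBox < (⊤ : ℝ≥0∞) := by
  have : IsCompact locBox := (isCompact_closedBall _ _).prod isCompact_Icc
  exact this.measure_lt_top

theorem mem_locBox_of_ne {f : E2 × ℝ → ℂ} (hsupp : ∀ q, f q ≠ 0 → ‖q.1‖ ≤ 1 / 10 ∧ |q.2| ≤ 1 / 10) {q : E2 × ℝ}
    (hq : f q ≠ 0) : q ∈ locBox := by
  obtain ⟨h1, h2⟩ := hsupp q hq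
  exact ⟨mem_closedBall_zero_iff.2 h1, abs_le.1 h2⟩

theorem loc_integrable {f : E2 × ℝ → ℂ} (hf : MemLp f 3 volume)
    (hsupp : ∀ q, f q ≠ 0 → ‖q.1‖ ≤ 1 / 10 ∧ |q.2| ≤ 1 / 10) : Integrable f volume := by
  have : IsFiniteMeasure (volume.restrict locBox) := ⟨by rw [Measure.restrict_apply_univ]; exact locBox_lt_top⟩
  have h1 : MemLp f 1 (volume.restrict locBox) := (hf.restrict locBox).mono_exponent (by norm_num)
  have h2 : IntegrableOn f locBox volume := memLp_one_iff_integrable.1 h1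
  refine (integrableOn_iff_integrable_of_support_subset fun q hq => ?_).1 h2
  exact mem_locBox_of_ne hsupp hq

theorem loc_kernel_continuous {α : ℝ → ℂ} (hα : ShellAmp α) (μ : ℝ) :
    Continuous fun r : (E2 × ℝ) × (E2 × ℝ) =>
      ee (μ * Real.sqrt (‖r.1.1 - r.2.1‖ ^ 2 + (r.1.2 - r.2.2) ^ 2)) * α (‖r.1.1 - r.2.1‖ ^ 2 + (r.1.2 - r.2.2) ^ 2) :=
  (continuous_ee.comp (by fun_prop)).mul (hα.smooth.continuous.comp (by fun_prop))

theorem loc_integrand_integrable {α : ℝ → ℂ} (hα : ShellAmp α) (μ : ℝ) {f : E2 × ℝ → ℂ} (hf : MemLp f 3 volume)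
    (hsupp : ∀ q, f q ≠ 0 → ‖q.1‖ ≤ 1 / 10 ∧ |q.2| ≤ 1 / 10) (p : E2 × ℝ) :
    Integrable (fun q : E2 × ℝ => ee (μ * Real.sqrt (‖p.1 - q.1‖ ^ 2 + (p.2 - q.2) ^ 2)) *
      α (‖p.1 - q.1‖ ^ 2 + (p.2 - q.2) ^ 2) * f q) volume := by
  obtain ⟨M, hM⟩ := hα.exists_bound
  refine (loc_integrable hf hsupp).bdd_mul (c := M) ?_ (Filter.Eventually.of_forall fun q => ?_)
  · exact ((loc_kernel_continuous hα μ).comp (Continuous.prodMk_right p)).aestronglyMeasurable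
  · rw [norm_mul, norm_ee, one_mul]
    exact hM _

/-- **BR-L1a** Fubini: `locOp α μ f (z, z₃) = ∫ h in [-1/10, 1/10], slOp α μ (f (·, h)) (z, z₃ - h)`. -/
theorem locOp_eq_integral {α : ℝ → ℂ} (hα : ShellAmp α) (μ : ℝ) {f : E2 × ℝ → ℂ} (hf : MemLp f 3 volume)
    (hsupp : ∀ q, f q ≠ 0 → ‖q.1‖ ≤ 1 / 10 ∧ |q.2| ≤ 1 / 10) (p : E2 × ℝ) :
    locOp α μ f p = ∫ h in Set.Icc (-(1 / 10) : ℝ) (1 / 10), slOp α μ (fun v => f (v, h)) (p.1, p.2 - h) := by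
  unfold locOp
  rw [Measure.volume_eq_prod, integral_prod_symm _ (loc_integrand_integrable hα μ hf hsupp p)]
  rw [setIntegral_eq_integral_of_forall_compl_eq_zero]
  · rfl
  · intro h hh
    unfold slOp
    refine integral_eq_zero_of_ae (Filter.Eventually.of_forall fun v => ?_)
    have : f (v, h) = 0 := by
      by_contra h0
      exact hh (mem_locBox_of_ne hsupp h0).2
    simp [this]

theorem slOp_stronglyMeasurable {α : ℝ → ℂ} (hα : ShellAmp α) (μ : ℝ) {g : E2 → ℂ} (hg : StronglyMeasurable g) :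
    StronglyMeasurable (slOp α μ g) := by
  have h1 : StronglyMeasurable fun r : (E2 × ℝ) × E2 =>
      ee (μ * Real.sqrt (‖r.1.1 - r.2‖ ^ 2 + r.1.2 ^ 2)) * α (‖r.1.1 - r.2‖ ^ 2 + r.1.2 ^ 2) * g r.2 := by
    refine StronglyMeasurable.mul ?_ (hg.comp_measurable measurable_snd)
    exact ((continuous_ee.comp (by fun_prop)).mul (hα.smooth.continuous.comp (by fun_prop))).stronglyMeasurable
  exact h1.integral_prod_right

theorem loc_eLpNorm3 {X : Type*} [MeasurableSpace X] (ν : Measure X) (g : X → ℂ) :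
    eLpNorm g 3 ν = (∫⁻ b, ‖g b‖ₑ ^ (3 : ℝ) ∂ν) ^ (1 / 3 : ℝ) := by
  have h3 : (3 : ℝ≥0∞).toReal = 3 := by norm_num
  rw [eLpNorm_eq_lintegral_rpow_enorm_toReal (by norm_num) (by norm_num), h3]

/-- the translation step -/
theorem loc_translate {g : E2 × ℝ → ℂ} (hg : StronglyMeasurable g) {h : ℝ} (hh : h ∈ Set.Icc (-(1 / 10) : ℝ) (1 / 10)) :
    eLpNorm (fun p : E2 × ℝ => g (p.1, p.2 - h)) 3
        (volume.restrict (Metric.closedBall (0 : E2) (1 / 10) ×ˢ Set.Icc (2 / 5 : ℝ) 3)) ≤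
      eLpNorm g 3 (volume.restrict (Metric.closedBall (0 : E2) (1 / 10) ×ˢ Set.Icc (1 / 4 : ℝ) 4)) := by
  have hτ : MeasurePreserving (fun p : E2 × ℝ => (p.1, p.2 - h)) volume volume :=
    (MeasurePreserving.id (volume : Measure E2)).prod (measurePreserving_sub_right volume h)
  have hΩ' : MeasurableSet (Metric.closedBall (0 : E2) (1 / 10) ×ˢ Set.Icc (1 / 4 : ℝ) 4) :=
    Metric.isClosed_closedBall.measurableSet.prod measurableSet_Icc
  have h1 := eLpNorm_comp_measurePreserving (p := 3) hg.aestronglyMeasurable (hτ.restrict_preimage hΩ')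
  rw [← h1]
  refine eLpNorm_mono_measure _ (Measure.restrict_mono ?_ le_rfl)
  rintro ⟨z, t⟩ ⟨hz, ht⟩
  refine ⟨hz, ?_⟩
  simp only [Set.mem_Icc] at ht hh ⊢
  constructor <;> linarith [ht.1, ht.2, hh.1, hh.2]

/-- the estimate for strongly measurable inputs -/
theorem loc_of_slice_meas {α : ℝ → ℂ} (hα : ShellAmp α) {μ C : ℝ} (hC : 0 ≤ C) (h : SliceBd α μ C)
    {f : E2 × ℝ → ℂ} (hfm : StronglyMeasurable f) (hf : MemLp f 3 volume)
    (hsupp : ∀ q, f q ≠ 0 → ‖q.1‖ ≤ 1 / 10 ∧ |q.2| ≤ 1 / 10) :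
    eLpNorm (locOp α μ f) 3 (volume.restrict (Metric.closedBall (0 : E2) (1 / 10) ×ˢ Set.Icc (2 / 5 : ℝ) 3)) ≤
      ENNReal.ofReal C * eLpNorm f 3 volume := by
  let G : ℝ → E2 × ℝ → ℂ := fun h p => slOp α μ (fun v => f (v, h)) (p.1, p.2 - h)
  have hGm : StronglyMeasurable (Function.uncurry G) := by
    have h1 : StronglyMeasurable fun r : (ℝ × (E2 × ℝ)) × E2 =>
        ee (μ * Real.sqrt (‖r.1.2.1 - r.2‖ ^ 2 + (r.1.2.2 - r.1.1) ^ 2)) *
          α (‖r.1.2.1 - r.2‖ ^ 2 + (r.1.2.2 - r.1.1) ^ 2) * f (r.2, r.1.1) := by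
      refine StronglyMeasurable.mul ?_ (hfm.comp_measurable (by fun_prop))
      exact ((continuous_ee.comp (by fun_prop)).mul (hα.smooth.continuous.comp (by fun_prop))).stronglyMeasurable
    exact h1.integral_prod_right
  have e0 : locOp α μ f = fun p => ∫ h, G h p ∂(volume.restrict (Set.Icc (-(1 / 10) : ℝ) (1 / 10))) :=
    funext fun p => locOp_eq_integral hα μ hf hsupp p
  rw [e0]
  refine (mink3 (volume.restrict (Set.Icc (-(1 / 10) : ℝ) (1 / 10))) _ G hGm.aestronglyMeasurable).trans ?_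
  -- slices
  have hcube : Measurable fun q : E2 × ℝ => ‖f q‖ₑ ^ (3 : ℝ) := hfm.measurable.enorm.pow_const _
  have hTm : Measurable fun h : ℝ => ∫⁻ v : E2, ‖f (v, h)‖ₑ ^ (3 : ℝ) := hcube.lintegral_prod_left'
  have hton : ∫⁻ h : ℝ, ∫⁻ v : E2, ‖f (v, h)‖ₑ ^ (3 : ℝ) = ∫⁻ q : E2 × ℝ, ‖f q‖ₑ ^ (3 : ℝ) := by
    rw [Measure.volume_eq_prod, lintegral_prod_symm' _ hcube]
  have hfin : ∫⁻ q : E2 × ℝ, ‖f q‖ₑ ^ (3 : ℝ) < ⊤ := by
    have := (eLpNorm_lt_top_iff_lintegral_rpow_enorm_lt_top (f := f) (μ := volume)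
      (p := 3) (by norm_num) (by norm_num)).1 hf.2
    simpa using this
  have hae : ∀ᵐ h : ℝ, ∫⁻ v : E2, ‖f (v, h)‖ₑ ^ (3 : ℝ) < ⊤ := ae_lt_top hTm (by rw [hton]; exact hfin.ne)
  have hsl : ∀ h : ℝ, StronglyMeasurable fun v : E2 => f (v, h) := fun h =>
    hfm.comp_measurable measurable_prodMk_right
  have hN : ∀ h : ℝ, eLpNorm (fun v : E2 => f (v, h)) 3 volume = (∫⁻ v : E2, ‖f (v, h)‖ₑ ^ (3 : ℝ)) ^ (1 / 3 : ℝ) :=
    fun h => loc_eLpNorm3 _ _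
  have hNm : Measurable fun h : ℝ => eLpNorm (fun v : E2 => f (v, h)) 3 volume := by
    simp only [hN]
    exact hTm.pow_const _
  have step1 : ∫⁻ h in Set.Icc (-(1 / 10) : ℝ) (1 / 10), eLpNorm (G h) 3
        (volume.restrict (Metric.closedBall (0 : E2) (1 / 10) ×ˢ Set.Icc (2 / 5 : ℝ) 3))
      ≤ ∫⁻ h in Set.Icc (-(1 / 10) : ℝ) (1 / 10), ENNReal.ofReal C * eLpNorm (fun v : E2 => f (v, h)) 3 volume := by
    refine lintegral_mono_ae ?_
    filter_upwards [ae_restrict_of_ae hae, ae_restrict_mem measurableSet_Icc] with h' h1 h2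
    have hmem : MemLp (fun v : E2 => f (v, h')) 3 volume :=
      ⟨(hsl h').aestronglyMeasurable, (eLpNorm_lt_top_iff_lintegral_rpow_enorm_lt_top
        (by norm_num) (by norm_num)).2 (by simpa using h1)⟩
    refine (loc_translate (slOp_stronglyMeasurable hα μ (hsl h')) h2).trans ?_
    exact h _ hmem fun v hv => (hsupp (v, h') hv).1
  refine step1.trans ?_
  rw [lintegral_const_mul _ hNm]
  refine mul_le_mul_right ?_ _
  have hhol := mink3_holder (volume.restrict (Set.Icc (-(1 / 10) : ℝ) (1 / 10)))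
    (fun h : ℝ => eLpNorm (fun v : E2 => f (v, h)) 3 volume) (fun _ => 1) (fun _ => 1) hNm
    measurable_const measurable_const
  simp only [mul_one, ENNReal.one_rpow, lintegral_const, Measure.restrict_apply_univ, Real.volume_Icc, one_mul] at hhol
  have hlen : (ENNReal.ofReal (1 / 10 - -(1 / 10) : ℝ)) ^ (1 / 3 : ℝ) ≤ 1 := by
    refine ENNReal.rpow_le_one ?_ (by norm_num)
    rw [ENNReal.ofReal_le_one]
    norm_num
  have hcub : ∀ h : ℝ, eLpNorm (fun v : E2 => f (v, h)) 3 volume ^ (3 : ℝ) = ∫⁻ v : E2, ‖f (v, h)‖ₑ ^ (3 : ℝ) := by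
    intro h
    rw [hN, ← ENNReal.rpow_mul]
    norm_num
  simp only [hcub] at hhol
  calc ∫⁻ h in Set.Icc (-(1 / 10) : ℝ) (1 / 10), eLpNorm (fun v : E2 => f (v, h)) 3 volume
      ≤ (∫⁻ h in Set.Icc (-(1 / 10) : ℝ) (1 / 10), ∫⁻ v : E2, ‖f (v, h)‖ₑ ^ (3 : ℝ)) ^ (1 / 3 : ℝ)
          * (ENNReal.ofReal (1 / 10 - -(1 / 10) : ℝ)) ^ (1 / 3 : ℝ)
          * (ENNReal.ofReal (1 / 10 - -(1 / 10) : ℝ)) ^ (1 / 3 : ℝ) := hhol
    _ ≤ (∫⁻ h in Set.Icc (-(1 / 10) : ℝ) (1 / 10), ∫⁻ v : E2, ‖f (v, h)‖ₑ ^ (3 : ℝ)) ^ (1 / 3 : ℝ) * 1 * 1 := by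
        gcongr
    _ ≤ (∫⁻ h : ℝ, ∫⁻ v : E2, ‖f (v, h)‖ₑ ^ (3 : ℝ)) ^ (1 / 3 : ℝ) := by
        rw [mul_one, mul_one]
        exact ENNReal.rpow_le_rpow (setLIntegral_le_lintegral _ _) (by norm_num)
    _ = eLpNorm f 3 volume := by rw [hton, loc_eLpNorm3]

/-- **BR-L1b** Minkowski in `h` (`mink3`), translation `z₃ ↦ z₃ - h` (`[2/5,3] - h ⊆ [1/4,4]`), `SliceBd` for a.e. `h` (a.e. slice of `f` is in `L³`),
Hölder on `[-1/10,1/10]` (length `1/5 ≤ 1`): `∫⁻ u ≤ (∫⁻ u³)^{1/3}`, Tonelli `∫⁻ h, ‖f(·,h)‖₃³ = ‖f‖₃³`. -/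
theorem loc_of_slice {α : ℝ → ℂ} (hα : ShellAmp α) {μ C : ℝ} (hC : 0 ≤ C) (h : SliceBd α μ C) : LocBd α μ C := by
  intro f hf hsupp
  -- a strongly measurable representative with the same support condition
  set f' : E2 × ℝ → ℂ := locBox.indicator (hf.1.mk f) with hf'
  have hf'm : StronglyMeasurable f' := hf.1.stronglyMeasurable_mk.indicator measurableSet_locBox
  have hae : f =ᵐ[volume] f' := by
    filter_upwards [hf.1.ae_eq_mk] with q hq
    by_cases hqB : q ∈ locBox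
    · rw [hf', Set.indicator_of_mem hqB, ← hq]
    · rw [hf', Set.indicator_of_notMem hqB]
      by_contra h0
      exact hqB (mem_locBox_of_ne hsupp h0)
  have hsupp' : ∀ q, f' q ≠ 0 → ‖q.1‖ ≤ 1 / 10 ∧ |q.2| ≤ 1 / 10 := by
    intro q hq
    have hqB : q ∈ locBox := by
      by_contra hqB
      exact hq (Set.indicator_of_notMem hqB _)
    exact ⟨mem_closedBall_zero_iff.1 hqB.1, abs_le.2 hqB.2⟩
  have e1 : locOp α μ f = locOp α μ f' := by
    funext p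
    unfold locOp
    refine integral_congr_ae ?_
    filter_upwards [hae] with q hq
    rw [hq]
  rw [e1, eLpNorm_congr_ae hae]
  exact loc_of_slice_meas hα hC h hf'm ((memLp_congr_ae hae).1 hf) hsupp'

/-- **BR-L2a** (`integral_J`, `J_sub`, `norm_J_sq`). -/
theorem kop_rk_J (α : ℝ → ℂ) (μ : ℝ) (f : E3 → ℂ) (p : E2 × ℝ) : kop (rk α μ) f (J p) = locOp α μ (fun q => f (J q)) p := by
  unfold kop locOp
  rw [integral_J]
  refine integral_congr_ae (Filter.Eventually.of_forall fun q => ?_)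
  have h1 : ‖J p - J q‖ ^ 2 = ‖p.1 - q.1‖ ^ 2 + (p.2 - q.2) ^ 2 := by
    rw [← J_sub, norm_J_sq]; rfl
  have h2 : ‖J p - J q‖ = Real.sqrt (‖p.1 - q.1‖ ^ 2 + (p.2 - q.2) ^ 2) := by
    rw [← h1, Real.sqrt_sq (norm_nonneg _)]
  simp only [rk]
  rw [h1, h2]

/-- **BR-L2b** radial kernels commute with isometries (`LinearIsometryEquiv.measurePreserving`, `integral_add_right_eq_self`). -/
theorem kop_isometry {k : E3 → ℂ} (hk : ∀ w w' : E3, ‖w‖ = ‖w'‖ → k w = k w') (A : E3 ≃ₗᵢ[ℝ] E3) (b : E3) (f : E3 → ℂ) (z : E3) :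
    kop k f z = kop k (fun y => f (A.symm y + b)) (A (z - b)) := by
  unfold kop
  have h1 := (A.measurePreserving).integral_comp A.toHomeomorph.measurableEmbedding
    (fun y => k (A (z - b) - y) * f (A.symm y + b))
  have h1' : ∫ y, k (A (z - b) - y) * f (A.symm y + b)
      = ∫ x, k (A (z - b) - A x) * f (A.symm (A x) + b) := h1.symm
  rw [h1']
  rw [← integral_sub_right_eq_self (fun x => k (A (z - b) - A x) * f (A.symm (A x) + b)) b]
  refine integral_congr_ae (Filter.Eventually.of_forall fun y => ?_)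
  simp only [LinearIsometryEquiv.symm_apply_apply, sub_add_cancel]
  congr 1
  apply hk
  rw [← map_sub, LinearIsometryEquiv.norm_map]
  congr 1
  abel

theorem norm_e3_L2 : ‖e3‖ = 1 := by
  have := norm_J_sq (0, 1)
  simp only [norm_zero] at this
  have h2 : ‖e3‖ ^ 2 = 1 := by
    unfold e3; rw [this]; norm_num
  nlinarith [norm_nonneg e3]

/-- **BR-L2c** `A := reflection (ℝ ∙ ((q - p) - ‖q - p‖ • e3))ᗮ` sends `q - p` to `ρ e3`, `ρ = ‖q - p‖ ∈ [9/20, 41/20]` (`reflection_sub`, `‖e3‖ = 1`); `b := p`.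
`f' y = f (A.symm y + p)` is supported in `closedBall 0 (1/50) ⊆ J '' {‖v‖ ≤ 1/10, |h| ≤ 1/10}`; `z ∈ closedBall q (1/50) ⟹ A (z - p) ∈ closedBall (ρ e3) (1/50) ⊆ J '' (closedBall 0 (1/10) ×ˢ [2/5, 3])`;
measure preservation of `z ↦ A (z - p)`, `eLpNorm_J`, `kop_rk_J`, `kop_isometry`. -/
theorem pair_of_loc {α : ℝ → ℂ} {μ C : ℝ} (h : LocBd α μ C) : PairBd (rk α μ) C := by
  intro p q hρ1 hρ2 f hf hsupp
  set ρ : ℝ := ‖q - p‖ with hρ
  have hnorm : ‖q - p‖ = ‖ρ • e3‖ := by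
    rw [norm_smul, norm_e3_L2, mul_one, Real.norm_of_nonneg (norm_nonneg _)]
  set A : E3 ≃ₗᵢ[ℝ] E3 := (ℝ ∙ ((q - p) - ρ • e3))ᗮ.reflection with hA
  have hAq : A (q - p) = ρ • e3 := Submodule.reflection_sub hnorm
  set f' : E3 → ℂ := fun y => f (A.symm y + p) with hf'
  have hrad : ∀ w w' : E3, ‖w‖ = ‖w'‖ → rk α μ w = rk α μ w' := by
    intro w w' hw
    unfold rk
    rw [hw]
  -- the change of variables `T z = A (z - p)`
  set T : E3 → E3 := fun z => A (z - p) with hT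
  have hTmp : MeasurePreserving T volume volume :=
    (A.measurePreserving).comp (measurePreserving_sub_right volume p)
  have hTemb : MeasurableEmbedding T :=
    A.toHomeomorph.measurableEmbedding.comp (measurableEmbedding_subRight p)
  set S : Set (E2 × ℝ) := Metric.closedBall (0 : E2) (1 / 10) ×ˢ Set.Icc (2 / 5 : ℝ) 3 with hS
  have hsub : Metric.closedBall q (1 / 50) ⊆ T ⁻¹' (J '' S) := by
    intro z hz
    rw [Metric.mem_closedBall, dist_eq_norm] at hz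
    refine ⟨Ji (T z), ?_, J_Ji _⟩
    have h1 : T z - ρ • e3 = A (z - q) := by
      rw [← hAq, hT, ← map_sub]
      congr 1
      abel
    have h2 : ‖T z - ρ • e3‖ ≤ 1 / 50 := by
      rw [h1, LinearIsometryEquiv.norm_map]; exact hz
    have h3 : T z - ρ • e3 = J (Ji (T z) - (0, ρ)) := by
      rw [J_sub, J_Ji]
      congr 1
      unfold e3
      rw [← J_smul]
      simp
    have h4 : ‖(Ji (T z)).1‖ ^ 2 + ((Ji (T z)).2 - ρ) ^ 2 ≤ (1 / 50) ^ 2 := by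
      have := norm_J_sq (Ji (T z) - (0, ρ))
      simp only [Prod.fst_sub, Prod.snd_sub, sub_zero] at this
      rw [← this, ← h3]
      exact pow_le_pow_left₀ (norm_nonneg _) h2 2
    have h5 : ‖(Ji (T z)).1‖ ≤ 1 / 50 :=
      abs_le_of_sq_le_sq' (by nlinarith [sq_nonneg ((Ji (T z)).2 - ρ)]) (by norm_num) |>.2
    have h6 : |(Ji (T z)).2 - ρ| ≤ 1 / 50 :=
      abs_le.2 (abs_le_of_sq_le_sq' (by nlinarith [sq_nonneg ‖(Ji (T z)).1‖]) (by norm_num))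
    rw [abs_le] at h6
    refine ⟨?_, ?_, ?_⟩
    · rw [mem_closedBall_zero_iff]; linarith
    · linarith [h6.1]
    · linarith [h6.2]
  have hUmp : MeasurePreserving (fun y : E3 => A.symm y + p) volume volume :=
    (measurePreserving_add_right volume p).comp (A.symm.measurePreserving)
  have hf'L : MemLp f' 3 volume := hf.comp_measurePreserving hUmp
  have hf'n : eLpNorm f' 3 volume = eLpNorm f 3 volume :=
    eLpNorm_comp_measurePreserving hf.1 hUmp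
  have hsupp' : ∀ q' : E2 × ℝ, f' (J q') ≠ 0 → ‖q'.1‖ ≤ 1 / 10 ∧ |q'.2| ≤ 1 / 10 := by
    intro q' hq'
    have h1 := hsupp _ hq'
    rw [add_sub_cancel_right, LinearIsometryEquiv.norm_map] at h1
    have h2 : ‖q'.1‖ ^ 2 + q'.2 ^ 2 ≤ (1 / 50) ^ 2 := by
      rw [← norm_J_sq]
      exact pow_le_pow_left₀ (norm_nonneg _) h1 2
    constructor
    · have := abs_le_of_sq_le_sq' (a := ‖q'.1‖) (b := 1 / 50) (by nlinarith [sq_nonneg q'.2]) (by norm_num) |>.2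
      linarith
    · have := abs_le.2 (abs_le_of_sq_le_sq' (a := q'.2) (b := 1 / 50) (by nlinarith [sq_nonneg ‖q'.1‖]) (by norm_num))
      linarith
  have e1 : kop (rk α μ) f = (kop (rk α μ) f') ∘ T := by
    funext z
    exact kop_isometry hrad A p f z
  calc eLpNorm (kop (rk α μ) f) 3 (volume.restrict (Metric.closedBall q (1 / 50)))
      ≤ eLpNorm (kop (rk α μ) f) 3 (volume.restrict (T ⁻¹' (J '' S))) :=
        eLpNorm_mono_measure _ (Measure.restrict_mono hsub le_rfl)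
    _ = eLpNorm (kop (rk α μ) f') 3 (volume.restrict (J '' S)) := by
        rw [e1, ← hTemb.eLpNorm_map_measure, (hTmp.restrict_preimage_emb hTemb (J '' S)).map_eq]
    _ = eLpNorm (locOp α μ (fun q => f' (J q))) 3 (volume.restrict S) := by
        rw [eLpNorm_J]
        simp only [kop_rk_J]
    _ ≤ ENNReal.ofReal C * eLpNorm (fun q => f' (J q)) 3 volume := h _ (memLp_J hf'L) hsupp'
    _ = ENNReal.ofReal C * eLpNorm f 3 volume := by rw [← eLpNorm_J_univ, hf'n]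

/-- **BR-L3** the grid.  `κ = 1/100`, `cell x i = ⌊100 x i⌋`, `Q j = cell ⁻¹' {j}` (`j : Fin 3 → ℤ`), `p j = (j i / 100)_i`; `Q j ⊆ closedBall (p j) (1/50)` (`√3/100 ≤ 1/50`).
`‖kop k f‖₃³ = ∑' j, ∫⁻_{Q j}` (`lintegral_iUnion`); on `Q j`: `kop k f = ∑_{Δ ∈ box} kop k (f 1_{Q (j-Δ)})`, `box = {Δ | ∀ i, |Δ i| ≤ 210}` (if `z ∈ Q j`, `k (z-y) ≠ 0` then `‖z - y‖ ≤ 2`);
a term with `‖p j - p (j-Δ)‖ ∉ [9/20, 41/20]` vanishes on `Q j` (then `‖z-y‖ ∉ [1/2,2]` for all `z ∈ Q j`, `y ∈ Q (j-Δ)`); the others are `≤ C ‖f 1_{Q(j-Δ)}‖₃` by `PairBd`.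
`(∑_{Δ ∈ box} a_Δ)³ ≤ |box|² ∑ a_Δ³`; `∑' j, ∑_Δ ‖f 1_{Q(j-Δ)}‖₃³ = |box| ‖f‖₃³`.  So `M = |box| = 421³` works. -/
theorem grid_bound : ∃ M : ℝ, 0 ≤ M ∧ ∀ (k : E3 → ℂ) (C : ℝ), CK k → (∀ w, k w ≠ 0 → 1 / 2 ≤ ‖w‖ ∧ ‖w‖ ≤ 2) → 0 ≤ C → PairBd k C →
    KBd k (M * C) := by
  obtain ⟨box, hbox⟩ := exists_gbox
  exact ⟨(box.card : ℝ), by positivity, fun k C hk hs _ hP => grid_core hbox hk hs hP⟩

theorem rk_ck {α : ℝ → ℂ} (hα : ShellAmp α) (μ : ℝ) : CK (rk α μ) := by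
  refine ⟨?_, ?_⟩
  · unfold rk
    exact (continuous_ee.comp (by fun_prop)).mul (hα.smooth.continuous.comp (by fun_prop))
  · refine HasCompactSupport.intro (isCompact_closedBall (0 : E3) 2) fun w hw => ?_
    by_contra h
    have h1 : α (‖w‖ ^ 2) ≠ 0 := fun h0 => h (by unfold rk; rw [h0, mul_zero])
    have h2 := (hα.supp _ h1).2
    exact hw (mem_closedBall_zero_iff.2 (abs_le_of_sq_le_sq' (by nlinarith) (by norm_num) |>.2))

theorem rk_supp {α : ℝ → ℂ} (hα : ShellAmp α) {μ : ℝ} {w : E3} (h : rk α μ w ≠ 0) : 1 / 2 ≤ ‖w‖ ∧ ‖w‖ ≤ 2 := by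
  have h1 : α (‖w‖ ^ 2) ≠ 0 := fun h0 => h (by unfold rk; rw [h0, mul_zero])
  obtain ⟨h2, h3⟩ := hα.supp _ h1
  exact ⟨abs_le_of_sq_le_sq' (by nlinarith) (norm_nonneg w) |>.2, abs_le_of_sq_le_sq' (by nlinarith) (by norm_num) |>.2⟩

theorem norm_rk (α : ℝ → ℂ) (μ : ℝ) (w : E3) : ‖rk α μ w‖ = ‖α (‖w‖ ^ 2)‖ := by
  unfold rk; rw [norm_mul, norm_ee, one_mul]

theorem half_le_two_rpow {ν : ℝ} (hν0 : 0 < ν) : (1 / 2 : ℝ) ≤ 2 ^ (-1 + ν) := by
  have h1 : (2 : ℝ) ^ (-1 : ℝ) ≤ 2 ^ (-1 + ν) := Real.rpow_le_rpow_of_exponent_le (by norm_num) (by linarith)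
  rw [Real.rpow_neg_one] at h1
  linarith

/-- **the unit shell bound** -/
theorem unitShell_of_osc (h : Osc.OSC) : UnitShell := by
  intro α hα ν hν0 hν1
  obtain ⟨C, hC0, hC⟩ := slice_bound h hα hν0 hν1
  obtain ⟨M, hM0, hM⟩ := grid_bound
  have hY0 : 0 ≤ ∫ w : E3, ‖α (‖w‖ ^ 2)‖ := integral_nonneg fun _ => norm_nonneg _
  refine ⟨2 * (M * C + ∫ w : E3, ‖α (‖w‖ ^ 2)‖), by positivity, fun μ => ?_⟩
  have hpos : 0 < 1 + |μ| := by positivity
  have hhalf := half_le_two_rpow hν0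
  by_cases hμ : 1 ≤ |μ|
  · have hμ0 : 0 < |μ| := by linarith
    have h1 : KBd (rk α μ) (M * (C * |μ| ^ (-1 + ν))) :=
      hM _ _ (rk_ck hα μ) (fun w => rk_supp hα) (by positivity)
        (pair_of_loc (loc_of_slice hα (by positivity) (hC μ hμ)))
    refine h1.mono ?_
    have h2 : (2 * |μ|) ^ (-1 + ν) ≤ (1 + |μ|) ^ (-1 + ν) :=
      Real.rpow_le_rpow_of_nonpos hpos (by linarith) (by linarith)
    rw [Real.mul_rpow (by norm_num) hμ0.le] at h2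
    have h3 : 0 ≤ |μ| ^ (-1 + ν) := by positivity
    have h4 : |μ| ^ (-1 + ν) ≤ 2 * (1 + |μ|) ^ (-1 + ν) := by nlinarith
    have h5 : 0 ≤ (1 + |μ|) ^ (-1 + ν) := by positivity
    calc M * (C * |μ| ^ (-1 + ν)) ≤ M * (C * (2 * (1 + |μ|) ^ (-1 + ν))) := by gcongr
      _ = 2 * (M * C) * (1 + |μ|) ^ (-1 + ν) := by ring
      _ ≤ 2 * (M * C + ∫ w : E3, ‖α (‖w‖ ^ 2)‖) * (1 + |μ|) ^ (-1 + ν) := by gcongr; linarith
  · push Not at hμ
    have h1 := KBd_young (rk_ck hα μ)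
    simp only [norm_rk] at h1
    refine h1.mono ?_
    have h2 : (2 : ℝ) ^ (-1 + ν) ≤ (1 + |μ|) ^ (-1 + ν) :=
      Real.rpow_le_rpow_of_nonpos hpos (by linarith) (by linarith)
    have h3 : (1 / 2 : ℝ) ≤ (1 + |μ|) ^ (-1 + ν) := hhalf.trans h2
    have h4 : 0 ≤ M * C := by positivity
    nlinarith

end Claimed.Agent.R255.BR
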