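import Claimed.Agent.R255.BR.Cut

/-!
# R255 / BR / Shell : unit shell bound `⟹` the dyadic shells of the kernel have norm `≤ C q^j`          (architect helper9)

Replaces BR Lemma 12.2 (symbol expansion).  `lam = 2^j`, `a = 1 - 1/lam`, `r = ‖x‖`, `d = min δ (1/2)`, `ν = d/2`.
`Gc δ r = ∫_{-1}^{-a} + ∫_{-a}^{a} + ∫_a^1` of `G(τ) e^{2π i τ r}`; three integrations by parts in the middle integral (`ibp3`).  Since
`phi0(r²/lam²) (2π i r)^{-m} = lam^{-m} am m (r²/lam²)`, the shell kernel is a superposition of the kernels `ek m lam τ = e^{2π i τ |x|} am m (|x|²/lam²)`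
(= dilates of `rk (am m) (lam τ)`) of total mass `≲ lam^{-2-d}`;   each has norm `≲ lam³ (1 + lam |τ|)^{-1+ν}`.
Leaves **BR-S\***.  Statements frozen, edit in place.
-/

set_option autoImplicit false

namespace Claimed.Agent.R255.BR

open MeasureTheory Complex
open scoped ENNReal ContDiff InnerProductSpace Real

/-- the amplitudes `phi0(u) (2π i √u)^{-m}` -/
noncomputable def am (m : ℕ) (u : ℝ) : ℂ := (phi0 u : ℂ) * ((((2 * π * Real.sqrt u : ℝ) : ℂ) * I)⁻¹) ^ m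

/-- **BR-S1** (smooth: near `u ≤ 1/8` the function vanishes identically, on `u > 0` it is a product of smooth functions: `Real.contDiffAt_sqrt`, `ContDiffAt.inv`). -/
theorem am_shellAmp (m : ℕ) : ShellAmp (am m) := by
  refine ⟨?_, fun u hu => phi0_supp fun h0 => hu (by unfold am; rw [h0]; simp)⟩
  rw [contDiff_iff_contDiffAt]
  intro u
  by_cases hu : u < 1 / 4
  · have h0 : am m =ᶠ[nhds u] fun _ => 0 := by
      filter_upwards [Iio_mem_nhds hu] with v hv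
      have h1 : phi0 v = 0 := by
        by_contra h
        exact absurd (phi0_supp h).1 (not_le.2 hv)
      unfold am
      rw [h1]
      simp
    exact contDiffAt_const.congr_of_eventuallyEq h0
  · have hu0 : 0 < u := by linarith [not_lt.1 hu]
    unfold am
    have h1 : ContDiffAt ℝ ∞ (fun u => (phi0 u : ℂ)) u :=
      Complex.ofRealCLM.contDiff.contDiffAt.comp u phi0_contDiff.contDiffAt
    have h2 : ContDiffAt ℝ ∞ (fun u : ℝ => (((2 * π * Real.sqrt u : ℝ) : ℂ) * I)) u :=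
      (Complex.ofRealCLM.contDiff.contDiffAt.comp u
        (contDiffAt_const.mul (Real.contDiffAt_sqrt hu0.ne'))).mul contDiffAt_const
    have h3 : (((2 * π * Real.sqrt u : ℝ) : ℂ) * I) ≠ 0 := by
      refine mul_ne_zero ?_ I_ne_zero
      have : 0 < 2 * π * Real.sqrt u := by positivity
      exact_mod_cast this.ne'
    exact h1.mul ((h2.inv h3).pow m)

/-- the elementary kernels -/
noncomputable def ek (m : ℕ) (lam τ : ℝ) (x : E3) : ℂ := ee (τ * ‖x‖) * am m (‖x‖ ^ 2 / lam ^ 2)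

theorem ek_eq_rk {lam : ℝ} (hlam : 0 < lam) (m : ℕ) (τ : ℝ) (x : E3) : ek m lam τ x = rk (am m) (lam * τ) (lam⁻¹ • x) := by
  unfold ek rk
  rw [norm_smul, norm_inv, Real.norm_eq_abs, abs_of_pos hlam]
  congr 2
  · field_simp
  · field_simp

theorem ek_continuous (m : ℕ) (lam : ℝ) : Continuous (Function.uncurry (ek m lam)) := by
  unfold ek Function.uncurry
  exact (continuous_ee.comp (by fun_prop)).mul ((am_shellAmp m).smooth.continuous.comp (by fun_prop))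

theorem ek_supp {m : ℕ} {lam : ℝ} (hlam : 0 < lam) {τ : ℝ} {x : E3} (h : ek m lam τ x ≠ 0) : ‖x‖ ≤ 2 * lam := by
  have h1 : am m (‖x‖ ^ 2 / lam ^ 2) ≠ 0 := fun h0 => h (by unfold ek; rw [h0, mul_zero])
  have h2 := ((am_shellAmp m).supp _ h1).2
  rw [div_le_iff₀ (by positivity)] at h2
  exact abs_le_of_sq_le_sq' (by nlinarith) (by positivity) |>.2

theorem ek_ck (m : ℕ) {lam : ℝ} (hlam : 0 < lam) (τ : ℝ) : CK (ek m lam τ) := by
  refine ⟨(ek_continuous m lam).comp (Continuous.prodMk_right τ), ?_⟩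
  exact HasCompactSupport.intro (isCompact_closedBall (0 : E3) (2 * lam)) fun x hx => by
    by_contra h
    exact hx (mem_closedBall_zero_iff.2 (ek_supp hlam h))

/-- the norm of the elementary kernels (glue: `UnitShell` + `KBd.scale`) -/
theorem ek_KBd (hUS : UnitShell) {ν : ℝ} (hν0 : 0 < ν) (hν1 : ν < 1) :
    ∃ C : ℝ, 0 ≤ C ∧ ∀ m : ℕ, m ≤ 3 → ∀ lam : ℝ, 0 < lam → ∀ τ : ℝ,
      KBd (ek m lam τ) (lam ^ 3 * (C * (1 + lam * |τ|) ^ (-1 + ν))) := by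
  choose C hC0 hC using fun m => hUS (am m) (am_shellAmp m) ν hν0 hν1
  refine ⟨∑ m ∈ Finset.range 4, C m, Finset.sum_nonneg fun m _ => hC0 m, fun m hm lam hlam τ => ?_⟩
  have h1 := (hC m (lam * τ)).scale hlam
  have h2 : (fun x => rk (am m) (lam * τ) (lam⁻¹ • x)) = ek m lam τ := funext fun x => (ek_eq_rk hlam m τ x).symm
  rw [h2, abs_mul, abs_of_pos hlam] at h1
  refine h1.mono ?_
  have h3 : C m ≤ ∑ m ∈ Finset.range 4, C m :=
    Finset.single_le_sum (f := C) (fun i _ => hC0 i) (Finset.mem_range.2 (by omega))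
  have h4 : (0 : ℝ) ≤ (1 + lam * |τ|) ^ (-1 + ν) := by positivity
  exact mul_le_mul_of_nonneg_left (mul_le_mul_of_nonneg_right h3 h4) (by positivity)

/-- `G`, `G'`, `G''`, `G'''` -/
noncomputable def Gd (δ : ℝ) : ℕ → ℝ → ℝ
  | 0 => Gf δ
  | 1 => fun τ => -(2 * π) * τ * (1 - τ ^ 2) ^ δ
  | 2 => fun τ => -(2 * π) * (1 - τ ^ 2) ^ δ + 4 * π * δ * τ ^ 2 * (1 - τ ^ 2) ^ (δ - 1)
  | 3 => fun τ => 12 * π * δ * τ * (1 - τ ^ 2) ^ (δ - 1) - 8 * π * δ * (δ - 1) * τ ^ 3 * (1 - τ ^ 2) ^ (δ - 2)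
  | _ => fun _ => 0

theorem sh_one_sub_sq_pos {τ : ℝ} (hτ : |τ| < 1) : 0 < 1 - τ ^ 2 := by
  have := (sq_lt_one_iff_abs_lt_one τ).2 hτ
  linarith

theorem sh_hasDerivAt_rpow (p : ℝ) {τ : ℝ} (hτ : |τ| < 1) :
    HasDerivAt (fun τ : ℝ => (1 - τ ^ 2) ^ p) (-(2 * τ) * p * (1 - τ ^ 2) ^ (p - 1)) τ := by
  have h1 : HasDerivAt (fun τ : ℝ => 1 - τ ^ 2) (-(2 * τ)) τ := by
    have := (hasDerivAt_pow 2 τ).const_sub 1
    simpa using this
  exact h1.rpow_const (Or.inl (sh_one_sub_sq_pos hτ).ne')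

/-- **BR-S2a** (`Real.hasDerivAt_rpow_const`/`HasDerivAt.rpow_const`, `1 - τ² > 0`; three cases `m = 0, 1, 2`). -/
theorem Gd_hasDerivAt {δ : ℝ} (hδ : 0 < δ) {m : ℕ} (hm : m < 3) {τ : ℝ} (hτ : |τ| < 1) : HasDerivAt (Gd δ m) (Gd δ (m + 1) τ) τ := by
  have hid : HasDerivAt (fun τ : ℝ => τ) 1 τ := hasDerivAt_id τ
  interval_cases m
  · have h1 := (sh_hasDerivAt_rpow (1 + δ) hτ).const_mul (π / (1 + δ))
    rw [add_sub_cancel_left] at h1
    have e : π / (1 + δ) * (-(2 * τ) * (1 + δ) * (1 - τ ^ 2) ^ δ) = Gd δ (0 + 1) τ := by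
      have : (1 + δ) ≠ 0 := by positivity
      simp only [Gd]
      field_simp
    rw [e] at h1
    exact h1
  · have h1 := ((hid.const_mul (-(2 * π))).mul (sh_hasDerivAt_rpow δ hτ))
    have e : -(2 * π) * 1 * (1 - τ ^ 2) ^ δ + -(2 * π) * τ * (-(2 * τ) * δ * (1 - τ ^ 2) ^ (δ - 1)) =
        Gd δ (1 + 1) τ := by
      simp only [Gd]
      ring
    rw [e] at h1
    exact h1
  · have h1 := ((sh_hasDerivAt_rpow δ hτ).const_mul (-(2 * π))).add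
      (((hasDerivAt_pow 2 τ).const_mul (4 * π * δ)).mul (sh_hasDerivAt_rpow (δ - 1) hτ))
    have e2 : δ - 1 - 1 = δ - 2 := by ring
    rw [e2] at h1
    have e : -(2 * π) * (-(2 * τ) * δ * (1 - τ ^ 2) ^ (δ - 1)) +
        (4 * π * δ * (((2 : ℕ) : ℝ) * τ ^ (2 - 1)) * (1 - τ ^ 2) ^ (δ - 1) +
          4 * π * δ * τ ^ 2 * (-(2 * τ) * (δ - 1) * (1 - τ ^ 2) ^ (δ - 2))) = Gd δ (2 + 1) τ := by
      simp only [Gd]
      push_cast
      ring
    rw [e] at h1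
    exact h1

/-- **BR-S2b** -/
theorem Gd3_continuousOn (δ : ℝ) {a : ℝ} (ha : a < 1) : ContinuousOn (Gd δ 3) (Set.Icc (-a) a) := by
  have hne : ∀ τ ∈ Set.Icc (-a) a, (1 - τ ^ 2 : ℝ) ≠ 0 := fun τ hτ =>
    (sh_one_sub_sq_pos (lt_of_le_of_lt (abs_le.2 hτ) ha)).ne'
  have h1 : ∀ p : ℝ, ContinuousOn (fun τ : ℝ => (1 - τ ^ 2) ^ p) (Set.Icc (-a) a) := fun p =>
    ContinuousOn.rpow_const (by fun_prop) fun τ hτ => Or.inl (hne τ hτ)
  simp only [Gd]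
  exact (ContinuousOn.mul (by fun_prop) (h1 _)).sub (ContinuousOn.mul (by fun_prop) (h1 _))

theorem sh_u_facts {τ : ℝ} (hτ : |τ| ≤ 1) :
    1 - |τ| ≤ 1 - τ ^ 2 ∧ 1 - τ ^ 2 ≤ 2 * (1 - |τ|) ∧ 1 - τ ^ 2 ≤ 1 ∧ 0 ≤ 1 - |τ| := by
  have h0 := abs_nonneg τ
  have e : τ ^ 2 = |τ| ^ 2 := (sq_abs τ).symm
  rw [e]
  refine ⟨by nlinarith, by nlinarith, by nlinarith, by linarith⟩

/-- `u^q ≤ t^p` for `0 < t ≤ u ≤ 1`, `p ≤ q`, `p ≤ 0`. -/
theorem sh_rpow_neg_le {t u p q : ℝ} (ht : 0 < t) (htu : t ≤ u) (hu : u ≤ 1) (hpq : p ≤ q)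
    (hp : p ≤ 0) : u ^ q ≤ t ^ p :=
  (Real.rpow_le_rpow_of_exponent_ge (ht.trans_le htu) hu hpq).trans
    (Real.rpow_le_rpow_of_nonpos ht htu hp)

/-- `u^q ≤ 4 t^p` for `0 ≤ u ≤ 2t`, `u ≤ 1`, `0 ≤ p ≤ q`, `p ≤ 2`. -/
theorem sh_rpow_pos_le {t u p q : ℝ} (hu0 : 0 ≤ u) (hut : u ≤ 2 * t) (hu : u ≤ 1) (hpq : p ≤ q)
    (hp : 0 ≤ p) (hp2 : p ≤ 2) (ht : 0 ≤ t) : u ^ q ≤ 4 * t ^ p := by
  calc u ^ q ≤ u ^ p := Real.rpow_le_rpow_of_exponent_ge' hu0 hu hp hpq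
    _ ≤ (2 * t) ^ p := Real.rpow_le_rpow hu0 hut hp
    _ = 2 ^ p * t ^ p := Real.mul_rpow (by norm_num) ht
    _ ≤ 4 * t ^ p := by
        have : (2 : ℝ) ^ p ≤ 2 ^ (2 : ℝ) := Real.rpow_le_rpow_of_exponent_le (by norm_num) hp2
        have e : (2 : ℝ) ^ (2 : ℝ) = 4 := by
          rw [show (2 : ℝ) = ((2 : ℕ) : ℝ) by norm_num, Real.rpow_natCast]
          norm_num
        rw [e] at this
        have h0 : 0 ≤ t ^ p := Real.rpow_nonneg ht p
        gcongr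

/-- **BR-S3** size of the derivatives, `t = 1 - |τ|`, `u = 1 - τ² ∈ [t, 2t]`, `u ≤ 1`, `d = min δ (1/2)`:
`u^{1+δ} ≤ u^{1+d} ≤ 4 t^{1+d}`, `u^δ ≤ u^d ≤ 2 t^d`, `u^δ, u^{δ-1} ≤ u^{d-1} ≤ t^{d-1}`, `u^{δ-1}, u^{δ-2} ≤ u^{d-2} ≤ t^{d-2}`. -/
theorem Gd_bound {δ : ℝ} (hδ : 0 < δ) : ∃ A : ℝ, 0 ≤ A ∧
    (∀ τ : ℝ, |τ| ≤ 1 → |Gf δ τ| ≤ A * (1 - |τ|) ^ (1 + min δ (1 / 2))) ∧
    (∀ m : ℕ, m < 3 → ∀ τ : ℝ, |τ| < 1 → |Gd δ m τ| ≤ A * (1 - |τ|) ^ (1 + min δ (1 / 2) - m)) ∧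
    (∀ τ : ℝ, |τ| < 1 → |Gd δ 3 τ| ≤ A * |τ| * (1 - |τ|) ^ (min δ (1 / 2) - 2)) := by
  set d : ℝ := min δ (1 / 2) with hd
  have hd0 : 0 < d := lt_min hδ (by norm_num)
  have hdδ : d ≤ δ := min_le_left _ _
  have hd2 : d ≤ 1 / 2 := min_le_right _ _
  have hπ := Real.pi_pos
  set A : ℝ := 8 * π + (2 * π + 4 * π * δ) + (12 * π * δ + 8 * π * δ * |δ - 1|) with hA
  have hA0 : 0 ≤ A := by positivity
  have c0 : 4 * π ≤ A := by
    have : 0 ≤ 8 * π * δ * |δ - 1| := by positivity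
    nlinarith
  have c1 : 8 * π ≤ A := by
    have : 0 ≤ 8 * π * δ * |δ - 1| := by positivity
    nlinarith
  have c2 : 2 * π + 4 * π * δ ≤ A := by
    have : 0 ≤ 8 * π * δ * |δ - 1| := by positivity
    nlinarith
  have c3 : 12 * π * δ + 8 * π * δ * |δ - 1| ≤ A := by nlinarith
  -- the function itself
  have b0 : ∀ τ : ℝ, |τ| ≤ 1 → |Gf δ τ| ≤ A * (1 - |τ|) ^ (1 + d) := by
    intro τ hτ
    obtain ⟨h1, h2, h3, h4⟩ := sh_u_facts hτ
    have hu0 : 0 ≤ 1 - τ ^ 2 := h4.trans h1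
    have hr := sh_rpow_pos_le (p := 1 + d) (q := 1 + δ) hu0 h2 h3 (by linarith) (by linarith)
      (by linarith) h4
    have ht0 : 0 ≤ (1 - |τ|) ^ (1 + d) := Real.rpow_nonneg h4 _
    unfold Gf
    rw [abs_mul, abs_of_nonneg (by positivity : 0 ≤ π / (1 + δ)),
      abs_of_nonneg (Real.rpow_nonneg hu0 _)]
    have hq : π / (1 + δ) ≤ π := div_le_self hπ.le (by linarith)
    calc π / (1 + δ) * (1 - τ ^ 2) ^ (1 + δ) ≤ π * (4 * (1 - |τ|) ^ (1 + d)) := by gcongr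
      _ = 4 * π * (1 - |τ|) ^ (1 + d) := by ring
      _ ≤ _ := by gcongr
  refine ⟨A, hA0, b0, ?_, ?_⟩
  · intro m hm τ hτ
    obtain ⟨h1, h2, h3, h4⟩ := sh_u_facts hτ.le
    have ht : 0 < 1 - |τ| := by linarith
    have hu0 : 0 ≤ 1 - τ ^ 2 := h4.trans h1
    interval_cases m
    · have := b0 τ hτ.le
      simpa [Gd] using this
    · have e : 1 + d - ((1 : ℕ) : ℝ) = d := by push_cast; ring
      rw [e]
      have hr := sh_rpow_pos_le (p := d) (q := δ) hu0 h2 h3 hdδ hd0.le (by linarith) h4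
      have ht0 : 0 ≤ (1 - |τ|) ^ d := Real.rpow_nonneg h4 _
      simp only [Gd]
      rw [abs_mul, abs_mul, abs_neg, abs_of_pos (by positivity : 0 < 2 * π),
        abs_of_nonneg (Real.rpow_nonneg hu0 _)]
      calc 2 * π * |τ| * (1 - τ ^ 2) ^ δ ≤ 2 * π * 1 * (4 * (1 - |τ|) ^ d) := by
            gcongr
        _ = 8 * π * (1 - |τ|) ^ d := by ring
        _ ≤ _ := by gcongr
    · have e : 1 + d - ((2 : ℕ) : ℝ) = d - 1 := by push_cast; ring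
      rw [e]
      have hr1 := sh_rpow_neg_le (p := d - 1) (q := δ) ht h1 h3 (by linarith) (by linarith)
      have hr2 := sh_rpow_neg_le (p := d - 1) (q := δ - 1) ht h1 h3 (by linarith) (by linarith)
      have ht0 : 0 ≤ (1 - |τ|) ^ (d - 1) := Real.rpow_nonneg h4 _
      have hτ2 : τ ^ 2 ≤ 1 := by linarith
      simp only [Gd]
      refine (abs_add_le _ _).trans ?_
      rw [abs_mul, abs_neg, abs_of_pos (by positivity : 0 < 2 * π),
        abs_of_nonneg (Real.rpow_nonneg hu0 _), abs_mul,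
        abs_of_nonneg (by positivity : 0 ≤ 4 * π * δ * τ ^ 2),
        abs_of_nonneg (Real.rpow_nonneg hu0 _)]
      calc 2 * π * (1 - τ ^ 2) ^ δ + 4 * π * δ * τ ^ 2 * (1 - τ ^ 2) ^ (δ - 1)
          ≤ 2 * π * (1 - |τ|) ^ (d - 1) + 4 * π * δ * 1 * (1 - |τ|) ^ (d - 1) := by gcongr
        _ = (2 * π + 4 * π * δ) * (1 - |τ|) ^ (d - 1) := by ring
        _ ≤ _ := by gcongr
  · intro τ hτ
    obtain ⟨h1, h2, h3, h4⟩ := sh_u_facts hτ.le
    have ht : 0 < 1 - |τ| := by linarith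
    have hu0 : 0 ≤ 1 - τ ^ 2 := h4.trans h1
    have hr1 := sh_rpow_neg_le (p := d - 2) (q := δ - 1) ht h1 h3 (by linarith) (by linarith)
    have hr2 := sh_rpow_neg_le (p := d - 2) (q := δ - 2) ht h1 h3 (by linarith) (by linarith)
    have ht0 : 0 ≤ (1 - |τ|) ^ (d - 2) := Real.rpow_nonneg h4 _
    have hτ0 := abs_nonneg τ
    have hτ3 : |τ| ^ 3 ≤ |τ| := by
      have : |τ| ^ 2 ≤ 1 := by nlinarith
      nlinarith
    simp only [Gd]
    refine (abs_sub _ _).trans ?_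
    rw [abs_mul, abs_mul, abs_of_nonneg (by positivity : 0 ≤ 12 * π * δ),
      abs_of_nonneg (Real.rpow_nonneg hu0 _), abs_mul, abs_mul, abs_mul,
      abs_of_nonneg (by positivity : 0 ≤ 8 * π * δ), abs_pow,
      abs_of_nonneg (Real.rpow_nonneg hu0 _)]
    calc 12 * π * δ * |τ| * (1 - τ ^ 2) ^ (δ - 1) + 8 * π * δ * |δ - 1| * |τ| ^ 3 * (1 - τ ^ 2) ^ (δ - 2)
        ≤ 12 * π * δ * |τ| * (1 - |τ|) ^ (d - 2) + 8 * π * δ * |δ - 1| * |τ| * (1 - |τ|) ^ (d - 2) := by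
          gcongr
      _ = (12 * π * δ + 8 * π * δ * |δ - 1|) * |τ| * (1 - |τ|) ^ (d - 2) := by ring
      _ ≤ _ := by gcongr

theorem sh_hasDerivAt_ee (r τ : ℝ) :
    HasDerivAt (fun τ : ℝ => ee (τ * r)) (ee (τ * r) * (((2 * π * r : ℝ) : ℂ) * I)) τ := by
  unfold ee
  have h1 : HasDerivAt (fun τ : ℝ => (((2 * π * (τ * r) : ℝ) : ℂ) * I))
      (((2 * π * r : ℝ) : ℂ) * I) τ := by
    have h2 : HasDerivAt (fun τ : ℝ => 2 * π * (τ * r)) (2 * π * r) τ := by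
      have := ((hasDerivAt_id τ).mul_const r).const_mul (2 * π)
      simpa using this
    exact (h2.ofReal_comp).mul_const I
  exact h1.cexp

theorem sh_two_pi_ne {r : ℝ} (hr : r ≠ 0) : (((2 * π * r : ℝ) : ℂ) * I) ≠ 0 := by
  refine mul_ne_zero ?_ I_ne_zero
  have : 2 * π * r ≠ 0 := by positivity
  exact_mod_cast this

/-- one integration by parts against `e^{2π i τ r}`. -/
theorem sh_ibp_step {a b : ℝ} (hab : a ≤ b) {f f' : ℝ → ℝ}
    (hf : ∀ τ ∈ Set.Icc a b, HasDerivAt f (f' τ) τ) (hc : ContinuousOn f' (Set.Icc a b)) {r : ℝ}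
    (hr : r ≠ 0) :
    ∫ τ in a..b, (f τ : ℂ) * ee (τ * r) =
      (((2 * π * r : ℝ) : ℂ) * I)⁻¹ * ((f b : ℂ) * ee (b * r) - (f a : ℂ) * ee (a * r))
        - (((2 * π * r : ℝ) : ℂ) * I)⁻¹ * ∫ τ in a..b, (f' τ : ℂ) * ee (τ * r) := by
  have hne := sh_two_pi_ne hr
  set c := (((2 * π * r : ℝ) : ℂ) * I)⁻¹ with hc'
  have hu : ∀ x ∈ Set.uIcc a b, HasDerivAt (fun τ => (f τ : ℂ)) ((f' x : ℝ) : ℂ) x := by
    rw [Set.uIcc_of_le hab]
    exact fun x hx => (hf x hx).ofReal_comp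
  have hv : ∀ x ∈ Set.uIcc a b, HasDerivAt (fun τ : ℝ => c * ee (τ * r)) (ee (x * r)) x := by
    intro x _
    have h1 := (sh_hasDerivAt_ee r x).const_mul c
    have e : c * (ee (x * r) * (((2 * π * r : ℝ) : ℂ) * I)) = ee (x * r) := by
      rw [hc', mul_comm (ee (x * r)), ← mul_assoc, inv_mul_cancel₀ hne, one_mul]
    rw [e] at h1
    exact h1
  have hu' : IntervalIntegrable (fun τ => ((f' τ : ℝ) : ℂ)) volume a b :=
    ContinuousOn.intervalIntegrable (by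
      rw [Set.uIcc_of_le hab]
      exact Complex.continuous_ofReal.comp_continuousOn hc)
  have hv' : IntervalIntegrable (fun τ : ℝ => ee (τ * r)) volume a b :=
    (continuous_ee.comp (by fun_prop)).intervalIntegrable _ _
  have key := intervalIntegral.integral_mul_deriv_eq_deriv_mul hu hv hu' hv'
  rw [key, ← intervalIntegral.integral_const_mul]
  congr 1
  · ring
  · congr 1
    funext τ
    ring

/-- **BR-S4** three integrations by parts (`intervalIntegral.integral_mul_deriv_eq_deriv_mul`, primitive of `ee (τ r)` is `ee (τ r) / (2π r i)`). -/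
theorem ibp3 {a b : ℝ} (hab : a ≤ b) {F : ℕ → ℝ → ℝ} (hF : ∀ m : ℕ, m < 3 → ∀ τ ∈ Set.Icc a b, HasDerivAt (F m) (F (m + 1) τ) τ)
    (hc : ContinuousOn (F 3) (Set.Icc a b)) {r : ℝ} (hr : r ≠ 0) :
    ∫ τ in a..b, (F 0 τ : ℂ) * ee (τ * r) =
      ∑ m ∈ Finset.range 3, (-1 : ℂ) ^ m * ((((2 * π * r : ℝ) : ℂ) * I)⁻¹) ^ (m + 1) * ((F m b : ℂ) * ee (b * r) - (F m a : ℂ) * ee (a * r))
        - ((((2 * π * r : ℝ) : ℂ) * I)⁻¹) ^ 3 * ∫ τ in a..b, (F 3 τ : ℂ) * ee (τ * r) := by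
  have c1 : ContinuousOn (F 1) (Set.Icc a b) := fun τ hτ =>
    (hF 1 (by norm_num) τ hτ).continuousAt.continuousWithinAt
  have c2 : ContinuousOn (F 2) (Set.Icc a b) := fun τ hτ =>
    (hF 2 (by norm_num) τ hτ).continuousAt.continuousWithinAt
  have s0 := sh_ibp_step hab (hF 0 (by norm_num)) c1 hr
  have s1 := sh_ibp_step hab (hF 1 (by norm_num)) c2 hr
  have s2 := sh_ibp_step hab (hF 2 (by norm_num)) hc hr
  simp only [zero_add, Nat.reduceAdd] at s0 s1 s2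
  rw [s0, s1, s2, Finset.sum_range_succ, Finset.sum_range_succ, Finset.sum_range_succ,
    Finset.sum_range_zero]
  ring

/-- **BR-S5** the decomposition of the shell kernel (see the header; if `‖x‖ = 0` all terms vanish because `phi0 0 = 0`). -/
theorem shk_decomp {δ : ℝ} (hδ : 0 < δ) {j : ℕ} (hj : 1 ≤ j) {lam a : ℝ} (hlam : lam = 2 ^ j) (ha : a = 1 - 1 / lam) (x : E3) :
    shk δ j x = (∫ τ in (-1 : ℝ)..(-a), (Gf δ τ : ℂ) * ek 0 lam τ x) + (∫ τ in a..1, (Gf δ τ : ℂ) * ek 0 lam τ x)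
      + ∑ m ∈ Finset.range 3, (((-1 : ℂ) ^ m * ((lam⁻¹ : ℝ) : ℂ) ^ (m + 1) * (Gd δ m a : ℂ)) * ek (m + 1) lam a x
          + (-((-1 : ℂ) ^ m * ((lam⁻¹ : ℝ) : ℂ) ^ (m + 1) * (Gd δ m (-a) : ℂ))) * ek (m + 1) lam (-a) x)
      + (-(((lam⁻¹ : ℝ) : ℂ) ^ 3)) * ∫ τ in (-a)..a, (Gd δ 3 τ : ℂ) * ek 3 lam τ x := by
  have hlam0 : 0 < lam := by
    rw [hlam]
    positivity
  have hlam2 : (2 : ℝ) ≤ lam := by
    rw [hlam]
    calc (2 : ℝ) = 2 ^ 1 := (pow_one _).symm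
      _ ≤ 2 ^ j := pow_le_pow_right₀ (by norm_num) hj
  have ha0 : 0 ≤ a := by
    rw [ha, sub_nonneg, div_le_one hlam0]
    linarith
  have ha1 : a < 1 := by
    rw [ha]
    have : 0 < 1 / lam := by positivity
    linarith
  set r : ℝ := ‖x‖ with hr
  set u : ℝ := r ^ 2 / lam ^ 2 with hu
  set P : ℂ := (phi0 u : ℂ) with hP
  have h4 : (4 : ℝ) ^ j = lam ^ 2 := by
    rw [hlam, ← pow_mul, mul_comm, pow_mul]
    norm_num
  have hshk : shk δ j x = P * Gc δ r := by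
    unfold shk Kbr
    rw [h4]
  by_cases hP0 : phi0 u = 0
  · have hek0 : ∀ m τ, ek m lam τ x = 0 := by
      intro m τ
      unfold ek am
      rw [← hr, ← hu, hP0]
      simp
    rw [hshk, hP, hP0]
    simp [hek0]
  have hu4 : 1 / 4 ≤ u := (phi0_supp hP0).1
  have hr0 : 0 < r := by
    rcases (norm_nonneg x).eq_or_lt with h0 | h0
    · exfalso
      rw [hu, hr, ← h0] at hu4
      norm_num at hu4
    · exact h0
  set c : ℂ := (((2 * π * r : ℝ) : ℂ) * I)⁻¹ with hc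
  have hsq : Real.sqrt u = r / lam := by
    rw [hu, ← div_pow, Real.sqrt_sq (by positivity)]
  have hlamC : (lam : ℂ) ≠ 0 := by exact_mod_cast hlam0.ne'
  have ham : ∀ m, am m u = P * ((lam : ℂ) * c) ^ m := by
    intro m
    unfold am
    rw [hsq]
    congr 2
    have e : (((2 * π * (r / lam) : ℝ) : ℂ) * I) = (lam : ℂ)⁻¹ * (((2 * π * r : ℝ) : ℂ) * I) := by
      push_cast
      field_simp
    rw [hc, e, mul_inv, inv_inv]
  have hcancel : ∀ m : ℕ, ((lam⁻¹ : ℝ) : ℂ) ^ m * (lam : ℂ) ^ m = 1 := by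
    intro m
    rw [← mul_pow]
    push_cast
    rw [inv_mul_cancel₀ hlamC, one_pow]
  have hek : ∀ (m : ℕ) (τ : ℝ), ((lam⁻¹ : ℝ) : ℂ) ^ m * ek m lam τ x = P * c ^ m * ee (τ * r) := by
    intro m τ
    unfold ek
    rw [← hr, ← hu, ham, mul_pow]
    calc ((lam⁻¹ : ℝ) : ℂ) ^ m * (ee (τ * r) * (P * ((lam : ℂ) ^ m * c ^ m)))
        = (((lam⁻¹ : ℝ) : ℂ) ^ m * (lam : ℂ) ^ m) * (P * c ^ m * ee (τ * r)) := by ring
      _ = _ := by rw [hcancel, one_mul]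
  have hek0 : ∀ τ : ℝ, ek 0 lam τ x = P * ee (τ * r) := by
    intro τ
    have := hek 0 τ
    simpa using this
  have i1 : ∀ p q : ℝ, ∫ τ in p..q, (Gf δ τ : ℂ) * ek 0 lam τ x =
      P * ∫ τ in p..q, (Gf δ τ : ℂ) * ee (τ * r) := by
    intro p q
    rw [← intervalIntegral.integral_const_mul]
    congr 1
    funext τ
    rw [hek0]
    ring
  have i3 : (-(((lam⁻¹ : ℝ) : ℂ) ^ 3)) * ∫ τ in (-a)..a, (Gd δ 3 τ : ℂ) * ek 3 lam τ x =
      -(P * c ^ 3 * ∫ τ in (-a)..a, (Gd δ 3 τ : ℂ) * ee (τ * r)) := by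
    rw [← intervalIntegral.integral_const_mul, ← intervalIntegral.integral_const_mul,
      ← intervalIntegral.integral_neg]
    congr 1
    funext τ
    calc -((lam⁻¹ : ℝ) : ℂ) ^ 3 * ((Gd δ 3 τ : ℂ) * ek 3 lam τ x)
        = -((Gd δ 3 τ : ℂ) * (((lam⁻¹ : ℝ) : ℂ) ^ 3 * ek 3 lam τ x)) := by ring
      _ = _ := by
          rw [hek]
          ring
  have i2 : ∀ m : ℕ, (((-1 : ℂ) ^ m * ((lam⁻¹ : ℝ) : ℂ) ^ (m + 1) * (Gd δ m a : ℂ)) * ek (m + 1) lam a x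
      + (-((-1 : ℂ) ^ m * ((lam⁻¹ : ℝ) : ℂ) ^ (m + 1) * (Gd δ m (-a) : ℂ))) * ek (m + 1) lam (-a) x) =
      P * ((-1 : ℂ) ^ m * c ^ (m + 1) * ((Gd δ m a : ℂ) * ee (a * r) - (Gd δ m (-a) : ℂ) * ee (-a * r))) := by
    intro m
    calc _ = (-1 : ℂ) ^ m * (Gd δ m a : ℂ) * (((lam⁻¹ : ℝ) : ℂ) ^ (m + 1) * ek (m + 1) lam a x)
        - (-1 : ℂ) ^ m * (Gd δ m (-a) : ℂ) * (((lam⁻¹ : ℝ) : ℂ) ^ (m + 1) * ek (m + 1) lam (-a) x) := by
          ring
      _ = _ := by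
          rw [hek, hek]
          ring
  have hib := ibp3 (a := -a) (b := a) (by linarith) (F := Gd δ)
    (fun m hm τ hτ => Gd_hasDerivAt hδ hm (lt_of_le_of_lt (abs_le.2 hτ) ha1))
    (Gd3_continuousOn δ ha1) hr0.ne'
  have hcont : Continuous fun τ : ℝ => (Gf δ τ : ℂ) * ee (τ * r) :=
    (Complex.continuous_ofReal.comp (Gf_continuous hδ)).mul (continuous_ee.comp (by fun_prop))
  have hsplit : Gc δ r = (∫ τ in (-1 : ℝ)..(-a), (Gf δ τ : ℂ) * ee (τ * r))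
      + (∫ τ in (-a)..a, (Gf δ τ : ℂ) * ee (τ * r)) + ∫ τ in a..1, (Gf δ τ : ℂ) * ee (τ * r) := by
    unfold Gc
    rw [intervalIntegral.integral_add_adjacent_intervals (hcont.intervalIntegrable _ _)
      (hcont.intervalIntegrable _ _),
      intervalIntegral.integral_add_adjacent_intervals (hcont.intervalIntegrable _ _)
      (hcont.intervalIntegrable _ _)]
  have hG0 : ∀ τ, Gd δ 0 τ = Gf δ τ := fun _ => rfl
  simp only [hG0] at hib
  rw [hshk, hsplit, hib, i1, i1, i3, Finset.sum_congr rfl fun m _ => i2 m, ← Finset.mul_sum]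
  ring

/-- **BR-S6a** the weight. -/
theorem wt_le {lam ν τ : ℝ} (hlam : 0 < lam) (hν0 : 0 < ν) (hν1 : ν < 1) (hτ : |τ| ≤ 1) :
    |τ| * (1 + lam * |τ|) ^ (-1 + ν) ≤ lam ^ (-1 + ν) := by
  have hs0 := abs_nonneg τ
  rcases hs0.eq_or_lt with h0 | h0
  · rw [← h0, zero_mul]
    positivity
  have h1 : (1 + lam * |τ|) ^ (-1 + ν) ≤ (lam * |τ|) ^ (-1 + ν) :=
    Real.rpow_le_rpow_of_nonpos (by positivity) (by linarith) (by linarith)
  have h2 : (lam * |τ|) ^ (-1 + ν) = lam ^ (-1 + ν) * |τ| ^ (-1 + ν) :=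
    Real.mul_rpow hlam.le hs0
  have h3 : |τ| * |τ| ^ (-1 + ν) = |τ| ^ ν := by
    conv_lhs => rw [← Real.rpow_one |τ|]
    rw [Real.rpow_one, ← Real.rpow_one_add' hs0 (by linarith)]
    congr 1
    ring
  have h4 : |τ| ^ ν ≤ 1 := Real.rpow_le_one hs0 hτ hν0.le
  have h5 : 0 ≤ lam ^ (-1 + ν) := by positivity
  calc |τ| * (1 + lam * |τ|) ^ (-1 + ν) ≤ |τ| * (lam ^ (-1 + ν) * |τ| ^ (-1 + ν)) := by
        rw [← h2]
        gcongr
    _ = lam ^ (-1 + ν) * (|τ| * |τ| ^ (-1 + ν)) := by ring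
    _ = lam ^ (-1 + ν) * |τ| ^ ν := by rw [h3]
    _ ≤ lam ^ (-1 + ν) * 1 := by gcongr
    _ = _ := mul_one _

/-- **BR-S6b** (split at `0`; primitive `(1-τ)^{d-1}/(1-d)` on `[0,a]`). -/
theorem integral_in_le {d lam a : ℝ} (hd0 : 0 < d) (hd1 : d ≤ 1 / 2) (hlam : 2 ≤ lam) (ha : a = 1 - 1 / lam) :
    ∫ τ in (-a)..a, (1 - |τ|) ^ (d - 2) ≤ 4 * lam ^ (1 - d) := by
  have hlam0 : 0 < lam := by linarith
  have ha0 : 0 ≤ a := by
    rw [ha, sub_nonneg, div_le_one hlam0]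
    linarith
  have ha1 : a < 1 := by
    rw [ha]
    have : 0 < 1 / lam := by positivity
    linarith
  have hd' : 0 < 1 - d := by linarith
  -- primitives
  have hP : ∀ τ ∈ Set.uIcc 0 a, HasDerivAt (fun τ : ℝ => (1 - τ) ^ (d - 1) / (1 - d))
      ((1 - τ) ^ (d - 2)) τ := by
    intro τ hτ
    rw [Set.uIcc_of_le ha0] at hτ
    have h1 : HasDerivAt (fun τ : ℝ => 1 - τ) (-1) τ := by
      simpa using (hasDerivAt_id τ).const_sub 1
    have h2 := (h1.rpow_const (p := d - 1) (Or.inl (by linarith [hτ.2]))).div_const (1 - d)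
    have e : -1 * (d - 1) * (1 - τ) ^ (d - 1 - 1) / (1 - d) = (1 - τ) ^ (d - 2) := by
      rw [show d - 1 - 1 = d - 2 by ring]
      field_simp
      ring
    rw [e] at h2
    exact h2
  have hQ : ∀ τ ∈ Set.uIcc (-a) 0, HasDerivAt (fun τ : ℝ => -((1 + τ) ^ (d - 1) / (1 - d)))
      ((1 + τ) ^ (d - 2)) τ := by
    intro τ hτ
    rw [Set.uIcc_of_le (by linarith)] at hτ
    have h1 : HasDerivAt (fun τ : ℝ => 1 + τ) 1 τ := by
      simpa using (hasDerivAt_id τ).const_add 1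
    have h2 := ((h1.rpow_const (p := d - 1) (Or.inl (by linarith [hτ.1]))).div_const (1 - d)).neg
    have e : -(1 * (d - 1) * (1 + τ) ^ (d - 1 - 1) / (1 - d)) = (1 + τ) ^ (d - 2) := by
      rw [show d - 1 - 1 = d - 2 by ring]
      field_simp
      ring
    rw [e] at h2
    exact h2
  have cP : ContinuousOn (fun τ : ℝ => (1 - τ) ^ (d - 2)) (Set.uIcc 0 a) := by
    rw [Set.uIcc_of_le ha0]
    exact ContinuousOn.rpow_const (by fun_prop) fun τ hτ => Or.inl (by linarith [hτ.2])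
  have cQ : ContinuousOn (fun τ : ℝ => (1 + τ) ^ (d - 2)) (Set.uIcc (-a) 0) := by
    rw [Set.uIcc_of_le (by linarith)]
    exact ContinuousOn.rpow_const (by fun_prop) fun τ hτ => Or.inl (by linarith [hτ.1])
  have iP := intervalIntegral.integral_eq_sub_of_hasDerivAt hP cP.intervalIntegrable
  have iQ := intervalIntegral.integral_eq_sub_of_hasDerivAt hQ cQ.intervalIntegrable
  have eP : ∫ τ in (0 : ℝ)..a, (1 - |τ|) ^ (d - 2) = ∫ τ in (0 : ℝ)..a, (1 - τ) ^ (d - 2) := by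
    refine intervalIntegral.integral_congr fun τ hτ => ?_
    rw [Set.uIcc_of_le ha0] at hτ
    simp only [abs_of_nonneg hτ.1]
  have eQ : ∫ τ in (-a)..0, (1 - |τ|) ^ (d - 2) = ∫ τ in (-a)..0, (1 + τ) ^ (d - 2) := by
    refine intervalIntegral.integral_congr fun τ hτ => ?_
    rw [Set.uIcc_of_le (by linarith)] at hτ
    simp only [abs_of_nonpos hτ.2, sub_neg_eq_add]
  have jP : IntervalIntegrable (fun τ : ℝ => (1 - |τ|) ^ (d - 2)) volume 0 a :=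
    cP.intervalIntegrable.congr (by
      rw [Set.uIoc_of_le ha0]
      intro τ hτ
      simp only [abs_of_nonneg hτ.1.le])
  have jQ : IntervalIntegrable (fun τ : ℝ => (1 - |τ|) ^ (d - 2)) volume (-a) 0 :=
    cQ.intervalIntegrable.congr (by
      rw [Set.uIoc_of_le (by linarith)]
      intro τ hτ
      simp only [abs_of_nonpos hτ.2, sub_neg_eq_add])
  rw [← intervalIntegral.integral_add_adjacent_intervals jQ jP, eP, eQ, iP, iQ]
  have e1 : 1 - a = lam⁻¹ := by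
    rw [ha]
    ring
  have e2 : (1 : ℝ) + -a = lam⁻¹ := by
    rw [ha]
    ring
  have e3 : (lam⁻¹) ^ (d - 1) = lam ^ (1 - d) := by
    rw [Real.inv_rpow hlam0.le, ← Real.rpow_neg hlam0.le]
    congr 1
    ring
  rw [e1, e2, e3]
  simp only [add_zero, sub_zero, Real.one_rpow]
  have hL : 0 ≤ lam ^ (1 - d) := by positivity
  have h2 : lam ^ (1 - d) / (1 - d) ≤ 2 * lam ^ (1 - d) := by
    rw [div_le_iff₀ hd']
    nlinarith
  have h3 : 0 ≤ 1 / (1 - d) := by positivity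
  linarith

/-- **the shell bound** -/
theorem shk_bound (hUS : UnitShell) {δ : ℝ} (hδ : 0 < δ) :
    ∃ C q : ℝ, 0 ≤ C ∧ 0 ≤ q ∧ q < 1 ∧ ∀ j : ℕ, 1 ≤ j → KBd (shk δ j) (C * q ^ j) := by
  obtain ⟨d, hd⟩ : ∃ d : ℝ, d = min δ (1 / 2) := ⟨_, rfl⟩
  have hd0 : 0 < d := by rw [hd]; exact lt_min hδ (by norm_num)
  have hd1 : d ≤ 1 / 2 := by rw [hd]; exact min_le_right _ _
  obtain ⟨C, hC0, hC⟩ := ek_KBd hUS (ν := d / 2) (by linarith) (by linarith)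
  obtain ⟨A, hA0, hG0, hGm, hG3⟩ := Gd_bound hδ
  rw [← hd] at hG0 hGm hG3
  refine ⟨20 * (A * C), 2 ^ (-(d / 2)), by positivity, by positivity,
    Real.rpow_lt_one_of_one_lt_of_neg (by norm_num) (by linarith), fun j hj => ?_⟩
  obtain ⟨lam, hlam⟩ : ∃ lam : ℝ, lam = 2 ^ j := ⟨_, rfl⟩
  obtain ⟨a, ha⟩ : ∃ a : ℝ, a = 1 - 1 / lam := ⟨_, rfl⟩
  have hlam2 : 2 ≤ lam := by
    rw [hlam]
    calc (2 : ℝ) = 2 ^ 1 := (pow_one 2).symm
      _ ≤ 2 ^ j := pow_le_pow_right₀ (by norm_num) hj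
  have hlam0 : 0 < lam := by linarith
  have hil : 1 / lam ≤ 1 / 2 := one_div_le_one_div_of_le (by norm_num) hlam2
  have hil0 : 0 < 1 / lam := by positivity
  have ha2 : 1 / 2 ≤ a := by rw [ha]; linarith
  have ha1 : a < 1 := by rw [ha]; linarith
  have ha0 : 0 ≤ a := by linarith
  -- powers of `lam`
  obtain ⟨P, hP⟩ : ∃ P : ℝ, P = lam ^ (-(d / 2)) := ⟨_, rfl⟩
  have hP0 : 0 ≤ P := by rw [hP]; positivity
  have hq : ((2 : ℝ) ^ (-(d / 2))) ^ j = P := by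
    rw [hP, hlam, ← Real.rpow_natCast, ← Real.rpow_natCast, ← Real.rpow_mul (by norm_num), ← Real.rpow_mul (by norm_num)]
    congr 1; ring
  have hx : ∀ x y : ℝ, lam ^ x * lam ^ y = lam ^ (x + y) := fun x y => (Real.rpow_add hlam0 x y).symm
  have hinv : ∀ x : ℝ, (1 / lam) ^ x = lam ^ (-x) := by
    intro x; rw [one_div, Real.inv_rpow hlam0.le, Real.rpow_neg hlam0.le]
  have hnat : ∀ n : ℕ, lam ^ n = lam ^ (n : ℝ) := fun n => (Real.rpow_natCast lam n).symm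
  have hinvn : ∀ n : ℕ, (lam⁻¹) ^ n = lam ^ (-(n : ℝ)) := by
    intro n; rw [inv_pow, hnat, Real.rpow_neg hlam0.le]
  -- the weight
  have hw : ∀ τ : ℝ, 1 / 2 ≤ |τ| → |τ| ≤ 1 → (1 + lam * |τ|) ^ (-1 + d / 2) ≤ 2 * lam ^ (-1 + d / 2) := by
    intro τ h1 h2
    have h3 := wt_le (ν := d / 2) hlam0 (by linarith) (by linarith) h2
    have h4 : (0 : ℝ) ≤ (1 + lam * |τ|) ^ (-1 + d / 2) := by positivity
    nlinarith
  have hcG : Continuous fun τ : ℝ => (Gf δ τ : ℂ) := Complex.continuous_ofReal.comp (Gf_continuous hδ)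
  -- the outer pieces
  have hout : ∀ a' b' : ℝ, a' ≤ b' → (∀ τ ∈ Set.Icc a' b', a ≤ |τ| ∧ |τ| ≤ 1) → b' - a' = 1 / lam →
      KBd (fun x => ∫ τ in a'..b', (Gf δ τ : ℂ) * ek 0 lam τ x) (2 * (A * C * P)) := by
    intro a' b' hab hτ hlen
    have h1 := KBd_super hab (ek_continuous 0 lam) (R := 2 * lam) (fun τ w h => ek_supp hlam0 h) hcG.continuousOn
      (N := fun τ => lam ^ 3 * (C * (1 + lam * |τ|) ^ (-1 + d / 2)))
      (m := fun _ => A * (1 / lam) ^ (1 + d) * (lam ^ 3 * (C * (2 * lam ^ (-1 + d / 2)))))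
      (fun τ _ => hC 0 (by norm_num) lam hlam0 τ) ?_ (fun τ _ => by positivity) continuousOn_const
    · refine h1.mono (le_of_eq ?_)
      rw [intervalIntegral.integral_const, hlen, smul_eq_mul, hP, hinv, hnat]
      have : (1 / lam) = lam ^ (-(1 : ℝ)) := by rw [Real.rpow_neg hlam0.le, Real.rpow_one, one_div]
      rw [this]
      calc lam ^ (-(1 : ℝ)) * (A * lam ^ (-(1 + d)) * (lam ^ ((3 : ℕ) : ℝ) * (C * (2 * lam ^ (-1 + d / 2)))))
          = 2 * (A * C * (lam ^ (-(1 : ℝ)) * lam ^ (-(1 + d)) * (lam ^ ((3 : ℕ) : ℝ) * lam ^ (-1 + d / 2)))) := by ring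
        _ = 2 * (A * C * lam ^ (-(d / 2))) := by
          rw [hx, hx, hx]; congr 3; push_cast; ring
    · intro τ hτ'
      obtain ⟨h2, h3⟩ := hτ τ hτ'
      rw [Complex.norm_real, Real.norm_eq_abs]
      have h4 : (1 - |τ|) ^ (1 + d) ≤ (1 / lam) ^ (1 + d) :=
        Real.rpow_le_rpow (by linarith) (by rw [ha] at h2; linarith) (by linarith)
      have h5 := hw τ (by linarith) h3
      have h6 : |Gf δ τ| ≤ A * (1 / lam) ^ (1 + d) := (hG0 τ h3).trans (mul_le_mul_of_nonneg_left h4 hA0)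
      have h7 : (0 : ℝ) ≤ (1 + lam * |τ|) ^ (-1 + d / 2) := by positivity
      exact mul_le_mul h6 (by gcongr) (by positivity) (by positivity)
  have hout_ck : ∀ a' b' : ℝ, a' ≤ b' → CK (fun x => ∫ τ in a'..b', (Gf δ τ : ℂ) * ek 0 lam τ x) := fun a' b' hab =>
    CK_super hab (ek_continuous 0 lam) (R := 2 * lam) (fun τ w h => ek_supp hlam0 h) hcG.continuousOn
  -- the boundary terms
  have hbd : ∀ m : ℕ, m < 3 → ∀ s : ℝ, |s| = a → ∀ c : ℂ, ‖c‖ = (lam⁻¹) ^ (m + 1) * |Gd δ m s| →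
      KBd (fun x => c * ek (m + 1) lam s x) (2 * (A * C * P)) := by
    intro m hm s hs c hc
    have h1 := (hC (m + 1) (by omega) lam hlam0 s).const_mul c
    refine h1.mono ?_
    have h2 : |Gd δ m s| ≤ A * (1 / lam) ^ (1 + d - m) := by
      have := hGm m hm s (by rw [hs]; exact ha1)
      rwa [hs, ha, sub_sub_cancel] at this
    have h3 := hw s (by rw [hs]; exact ha2) (by rw [hs]; exact ha1.le)
    have h4 : (0 : ℝ) ≤ (1 + lam * |s|) ^ (-1 + d / 2) := by positivity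
    rw [hc]
    calc (lam⁻¹) ^ (m + 1) * |Gd δ m s| * (lam ^ 3 * (C * (1 + lam * |s|) ^ (-1 + d / 2)))
        ≤ (lam⁻¹) ^ (m + 1) * (A * (1 / lam) ^ (1 + d - m)) * (lam ^ 3 * (C * (2 * lam ^ (-1 + d / 2)))) := by gcongr
      _ = 2 * (A * C * (lam ^ (-((m + 1 : ℕ) : ℝ)) * lam ^ (-(1 + d - m)) * (lam ^ ((3 : ℕ) : ℝ) * lam ^ (-1 + d / 2)))) := by
          rw [hinvn, hinv, hnat]; ring
      _ = 2 * (A * C * P) := by
          rw [hx, hx, hx, hP]; congr 3; push_cast; ring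
  -- the inner piece
  have hc3 : ContinuousOn (fun τ : ℝ => (Gd δ 3 τ : ℂ)) (Set.Icc (-a) a) :=
    Complex.continuous_ofReal.comp_continuousOn (Gd3_continuousOn δ ha1)
  have hin : KBd (fun x => ∫ τ in (-a)..a, (Gd δ 3 τ : ℂ) * ek 3 lam τ x) (A * C * (lam ^ 3 * lam ^ (-1 + d / 2)) * (4 * lam ^ (1 - d))) := by
    have h1 := KBd_super (by linarith : -a ≤ a) (ek_continuous 3 lam) (R := 2 * lam) (fun τ w h => ek_supp hlam0 h) hc3
      (N := fun τ => lam ^ 3 * (C * (1 + lam * |τ|) ^ (-1 + d / 2)))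
      (m := fun τ => A * C * (lam ^ 3 * lam ^ (-1 + d / 2)) * (1 - |τ|) ^ (d - 2))
      (fun τ _ => hC 3 le_rfl lam hlam0 τ) ?_ ?_ ?_
    · refine h1.mono ?_
      rw [intervalIntegral.integral_const_mul]
      exact mul_le_mul_of_nonneg_left (integral_in_le hd0 hd1 hlam2 ha) (by positivity)
    · intro τ hτ
      have hτa : |τ| ≤ a := abs_le.2 hτ
      rw [Complex.norm_real, Real.norm_eq_abs]
      have h2 := hG3 τ (by linarith)
      have h3 := wt_le (ν := d / 2) hlam0 (by linarith) (by linarith) (by linarith : |τ| ≤ 1)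
      have h4 : (0 : ℝ) ≤ (1 - |τ|) ^ (d - 2) := Real.rpow_nonneg (by linarith) _
      have h5 : (0 : ℝ) ≤ (1 + lam * |τ|) ^ (-1 + d / 2) := by positivity
      calc |Gd δ 3 τ| * (lam ^ 3 * (C * (1 + lam * |τ|) ^ (-1 + d / 2)))
          ≤ (A * |τ| * (1 - |τ|) ^ (d - 2)) * (lam ^ 3 * (C * (1 + lam * |τ|) ^ (-1 + d / 2))) := by gcongr
        _ = A * C * lam ^ 3 * (1 - |τ|) ^ (d - 2) * (|τ| * (1 + lam * |τ|) ^ (-1 + d / 2)) := by ring
        _ ≤ A * C * lam ^ 3 * (1 - |τ|) ^ (d - 2) * lam ^ (-1 + d / 2) := by gcongr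
        _ = A * C * (lam ^ 3 * lam ^ (-1 + d / 2)) * (1 - |τ|) ^ (d - 2) := by ring
    · intro τ hτ
      have hτa : |τ| ≤ a := abs_le.2 hτ
      have h4 : (0 : ℝ) ≤ (1 - |τ|) ^ (d - 2) := Real.rpow_nonneg (by linarith) _
      positivity
    · refine continuousOn_const.mul (ContinuousOn.rpow_const (by fun_prop) ?_)
      intro τ hτ
      have hτa : |τ| ≤ a := abs_le.2 hτ
      exact Or.inl (by linarith)
  have hin_ck : CK (fun x => ∫ τ in (-a)..a, (Gd δ 3 τ : ℂ) * ek 3 lam τ x) :=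
    CK_super (by linarith : -a ≤ a) (ek_continuous 3 lam) (R := 2 * lam) (fun τ w h => ek_supp hlam0 h) hc3
  have hin' : KBd (fun x => (-(((lam⁻¹ : ℝ) : ℂ) ^ 3)) * ∫ τ in (-a)..a, (Gd δ 3 τ : ℂ) * ek 3 lam τ x) (4 * (A * C * P)) := by
    refine (hin.const_mul _).mono (le_of_eq ?_)
    rw [norm_neg, norm_pow, Complex.norm_real, Real.norm_eq_abs, abs_of_pos (by positivity), hinvn, hnat]
    calc lam ^ (-((3 : ℕ) : ℝ)) * (A * C * (lam ^ ((3 : ℕ) : ℝ) * lam ^ (-1 + d / 2)) * (4 * lam ^ (1 - d)))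
        = 4 * (A * C * (lam ^ (-((3 : ℕ) : ℝ)) * lam ^ ((3 : ℕ) : ℝ) * (lam ^ (-1 + d / 2) * lam ^ (1 - d)))) := by ring
      _ = 4 * (A * C * P) := by
        rw [hx, hx, hx, hP]; congr 3; ring
  -- norms of the coefficients
  have hnc : ∀ (m : ℕ) (s : ℝ), ‖(-1 : ℂ) ^ m * ((lam⁻¹ : ℝ) : ℂ) ^ (m + 1) * (Gd δ m s : ℂ)‖ = (lam⁻¹) ^ (m + 1) * |Gd δ m s| := by
    intro m s
    rw [norm_mul, norm_mul, norm_pow, norm_pow, norm_neg, norm_one, one_pow, one_mul, Complex.norm_real, Complex.norm_real,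
      Real.norm_eq_abs, Real.norm_eq_abs, abs_of_pos (by positivity : (0 : ℝ) < lam⁻¹)]
  have habs : |a| = a := abs_of_nonneg ha0
  have habs' : |-a| = a := by rw [abs_neg, habs]
  have hsum : KBd (fun x => ∑ m ∈ Finset.range 3, (((-1 : ℂ) ^ m * ((lam⁻¹ : ℝ) : ℂ) ^ (m + 1) * (Gd δ m a : ℂ)) * ek (m + 1) lam a x
          + (-((-1 : ℂ) ^ m * ((lam⁻¹ : ℝ) : ℂ) ^ (m + 1) * (Gd δ m (-a) : ℂ))) * ek (m + 1) lam (-a) x))
      (∑ _m ∈ Finset.range 3, (2 * (A * C * P) + 2 * (A * C * P))) := by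
    refine KBd.sum _ (fun m _ => ((ek_ck (m + 1) hlam0 a).const_mul _).add ((ek_ck (m + 1) hlam0 (-a)).const_mul _)) ?_
      (fun m _ => by positivity)
    intro m hm
    exact KBd.add ((ek_ck (m + 1) hlam0 a).const_mul _) ((ek_ck (m + 1) hlam0 (-a)).const_mul _)
      (hbd m (Finset.mem_range.1 hm) a habs _ (hnc m a))
      (hbd m (Finset.mem_range.1 hm) (-a) habs' _ (by rw [norm_neg]; exact hnc m (-a))) (by positivity) (by positivity)
  have hsum_ck : CK (fun x => ∑ m ∈ Finset.range 3, (((-1 : ℂ) ^ m * ((lam⁻¹ : ℝ) : ℂ) ^ (m + 1) * (Gd δ m a : ℂ)) * ek (m + 1) lam a x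
          + (-((-1 : ℂ) ^ m * ((lam⁻¹ : ℝ) : ℂ) ^ (m + 1) * (Gd δ m (-a) : ℂ))) * ek (m + 1) lam (-a) x)) :=
    CK.sum _ fun m _ => ((ek_ck (m + 1) hlam0 a).const_mul _).add ((ek_ck (m + 1) hlam0 (-a)).const_mul _)
  have h1 := hout (-1) (-a) (by linarith) (fun τ hτ => by
    have : |τ| = -τ := abs_of_nonpos (by linarith [hτ.2])
    rw [this]; exact ⟨by linarith [hτ.2], by linarith [hτ.1]⟩) (by rw [ha]; ring)
  have h2 := hout a 1 ha1.le (fun τ hτ => by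
    have : |τ| = τ := abs_of_nonneg (by linarith [hτ.1])
    rw [this]; exact hτ) (by rw [ha]; ring)
  have h12 := KBd.add (hout_ck (-1) (-a) (by linarith)) (hout_ck a 1 ha1.le) h1 h2 (by positivity) (by positivity)
  have h123 := KBd.add ((hout_ck (-1) (-a) (by linarith)).add (hout_ck a 1 ha1.le)) hsum_ck h12 hsum (by positivity)
    (Finset.sum_nonneg fun _ _ => by positivity)
  have h1234 := KBd.add (((hout_ck (-1) (-a) (by linarith)).add (hout_ck a 1 ha1.le)).add hsum_ck) (hin_ck.const_mul _) h123 hin'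
    (add_nonneg (by positivity) (Finset.sum_nonneg fun _ _ => by positivity)) (by positivity)
  have hfun : shk δ j = fun x => (∫ τ in (-1 : ℝ)..(-a), (Gf δ τ : ℂ) * ek 0 lam τ x) + (∫ τ in a..1, (Gf δ τ : ℂ) * ek 0 lam τ x)
      + ∑ m ∈ Finset.range 3, (((-1 : ℂ) ^ m * ((lam⁻¹ : ℝ) : ℂ) ^ (m + 1) * (Gd δ m a : ℂ)) * ek (m + 1) lam a x
          + (-((-1 : ℂ) ^ m * ((lam⁻¹ : ℝ) : ℂ) ^ (m + 1) * (Gd δ m (-a) : ℂ))) * ek (m + 1) lam (-a) x)
      + (-(((lam⁻¹ : ℝ) : ℂ) ^ 3)) * ∫ τ in (-a)..a, (Gd δ 3 τ : ℂ) * ek 3 lam τ x :=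
    funext fun x => shk_decomp hδ hj hlam ha x
  rw [hfun, hq]
  refine h1234.mono (le_of_eq ?_)
  rw [Finset.sum_const, Finset.card_range]
  simp only [nsmul_eq_mul]
  push_cast
  ring

end Claimed.Agent.R255.BR
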