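import Claimed.Agent.R255.BR.Gt

/-!
# R255 / BR / Slice : `Osc.OSC ⟹` the sliced distance-phase estimate                      (architect helper9)

BR paper l.262-290, 346-352.  `slOp α μ f (z,t) = ∫_{ℝ²} e^{2π i μ √(|z-v|²+t²)} α(|z-v|²+t²) f(v) dv`   (`t = z₃ - y₃ ∈ [1/4, 4]`).
Pseudoconformal change of variables: `s = 1/t ∈ [1/4,4]`, `s = sS + dD c`, `x = (s/dD) z`:  `√(|z-v|²+t²) = s⁻¹ g(dD x - s v)`.
ONE phase (two signs), ONE amplitude.    Leaves **BR-P\***.  Statements frozen, edit in place.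
-/

set_option autoImplicit false

namespace Claimed.Agent.R255.BR

open MeasureTheory Complex
open scoped ENNReal ContDiff InnerProductSpace Real

/-- the sliced operator -/
noncomputable def slOp (α : ℝ → ℂ) (μ : ℝ) (f : E2 → ℂ) (p : E2 × ℝ) : ℂ :=
  ∫ v, ee (μ * Real.sqrt (‖p.1 - v‖ ^ 2 + p.2 ^ 2)) * α (‖p.1 - v‖ ^ 2 + p.2 ^ 2) * f v

/-- the sliced estimate with constant `C` -/
def SliceBd (α : ℝ → ℂ) (μ C : ℝ) : Prop :=
  ∀ f : E2 → ℂ, MemLp f 3 volume → (∀ v, f v ≠ 0 → ‖v‖ ≤ 1 / 10) →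
    eLpNorm (slOp α μ f) 3 (volume.restrict (Metric.closedBall (0 : E2) (1 / 10) ×ˢ Set.Icc (1 / 4 : ℝ) 4)) ≤
      ENNReal.ofReal C * eLpNorm f 3 volume

/-- `s_*` -/
noncomputable def sS : ℝ := 1 / 4
/-- `D` -/
noncomputable def dD : ℝ := 15 / 4

/-- the phase -/
noncomputable def PhiT (σ c : ℝ) (x v : E2) : ℝ := σ * ((sS + dD * c)⁻¹ * gtf (dD • x - (sS + dD * c) • v))

/-- `ζ` -/
noncomputable def zetaT (σ : ℝ) (v p : E2) : E2 := -(σ • Nt (dD • p - sS • v))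

/-- cutoff in `v`: `1` on `‖v‖ ≤ 1/2`, `0` on `‖v‖ ≥ 1` -/
noncomputable def chiV (v : E2) : ℝ := bcut (4 * ‖v‖ ^ 2)

/-- the amplitude -/
noncomputable def ampT (α : ℝ → ℂ) (c : ℝ) (x v : E2) : ℂ :=
  if c ∈ Set.Icc (0 : ℝ) 1 ∧ ‖x‖ ≤ 1 then
    (chiV v : ℂ) * α (‖(dD * (sS + dD * c)⁻¹) • x - v‖ ^ 2 + ((sS + dD * c)⁻¹) ^ 2) else 0

/-- the constants of the class -/
noncomputable def oscK (a1 : ℝ) (A Bb : ℕ → ℝ) : Osc.OscBd where
  a0 := dD * (1 / 12)
  a1 := dD * a1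
  A := fun j => dD * A j * 4 ^ j
  Bb := Bb
  Rv := 1
  Rx := 1

/-- **BR-P1a** `dpZ (zetaT σ) (v,p) = -(σ dD) • D Nt (dD p - sS v)`. -/
theorem dpZ_zetaT (σ : ℝ) (q : E2 × E2) : Osc.dpZ (zetaT σ) q = (-(σ * dD)) • fderiv ℝ Nt (dD • q.2 - sS • q.1) := by
  have hN : HasFDerivAt Nt (fderiv ℝ Nt (dD • q.2 - sS • q.1)) (dD • q.2 - sS • q.1) :=
    ((Nt_contDiff.differentiable (by simp)) _).hasFDerivAt
  have hL : HasFDerivAt (fun p : E2 => dD • p - sS • q.1) (dD • ContinuousLinearMap.id ℝ E2) q.2 :=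
    ((hasFDerivAt_id q.2).const_smul dD).sub_const _
  have hc := ((hN.comp q.2 hL).const_smul σ).neg
  have e : Osc.dpZ (zetaT σ) q = fderiv ℝ (fun p : E2 => -(σ • Nt (dD • p - sS • q.1))) q.2 := rfl
  rw [e]
  have e2 := hc.fderiv
  refine Eq.trans e2 ?_
  ext1 a
  simp only [neg_apply, smul_apply, ContinuousLinearMap.comp_apply,
    ContinuousLinearMap.id_apply, map_smul, neg_smul, mul_smul]

/-- the linear map `(v,p) ↦ dD p - sS v` has norm `≤ 4` -/
theorem slL_exists : ∃ L : E2 × E2 →L[ℝ] E2, (∀ q, L q = dD • q.2 - sS • q.1) ∧ ‖L‖ ≤ 4 := by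
  refine ⟨dD • ContinuousLinearMap.snd ℝ E2 E2 - sS • ContinuousLinearMap.fst ℝ E2 E2, fun q => rfl, ?_⟩
  refine ContinuousLinearMap.opNorm_le_bound _ (by norm_num) fun q => ?_
  change ‖dD • q.2 - sS • q.1‖ ≤ 4 * ‖q‖
  have h1 : ‖q.1‖ ≤ ‖q‖ := norm_fst_le q
  have h2 : ‖q.2‖ ≤ ‖q‖ := norm_snd_le q
  calc ‖dD • q.2 - sS • q.1‖ ≤ ‖dD • q.2‖ + ‖sS • q.1‖ := norm_sub_le _ _
    _ = dD * ‖q.2‖ + sS * ‖q.1‖ := by
        rw [norm_smul, norm_smul, Real.norm_of_nonneg (by unfold dD; norm_num),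
          Real.norm_of_nonneg (by unfold sS; norm_num)]
    _ ≤ 4 * ‖q‖ := by unfold dD sS; linarith

/-- **BR-P1b** the phase class.  `grad`: chain rule from `gtf_grad`, `dD (x - c v) - sS v = dD x - (sS + dD c) v`, `sS + dD c > 0`.  `definite`: `sg = -σ`.
`bound`: `dpZ (zetaT σ) = (-(σ dD)) • (fderiv ℝ Nt ∘ L)`, `L (v,p) = dD p - sS v`, `‖L‖ ≤ 4`; `ContinuousLinearMap.iteratedFDeriv_comp_right`,
`ContinuousMultilinearMap.norm_compContinuousLinearMap_le`, `iteratedFDeriv_const_smul_apply`. -/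
theorem isPhaseT {a1 : ℝ} (ha1 : ∀ q a : E2, 1 / 12 * ‖a‖ ^ 2 ≤ ⟪fderiv ℝ Nt q a, a⟫_ℝ ∧ ⟪fderiv ℝ Nt q a, a⟫_ℝ ≤ a1 * ‖a‖ ^ 2)
    {A : ℕ → ℝ} (hA : ∀ (j : ℕ) (q : E2), ‖iteratedFDeriv ℝ j (fderiv ℝ Nt) q‖ ≤ A j) (Bb : ℕ → ℝ) {σ : ℝ} (hσ : σ = 1 ∨ σ = -1) :
    Osc.IsPhase (oscK a1 A Bb) (PhiT σ) (zetaT σ) := by
  have hσ2 : σ * σ = 1 := by rcases hσ with rfl | rfl <;> norm_num
  have hσa : |σ| = 1 := by rcases hσ with rfl | rfl <;> norm_num
  have hD : (0 : ℝ) < dD := by unfold dD; norm_num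
  refine ⟨?_, fun c hc x v => ?_, fun q a b => ?_, ⟨-σ, ?_, fun q a => ?_⟩, fun j q => ?_⟩
  · unfold zetaT
    have hl : ContDiff ℝ ∞ (fun q : E2 × E2 => dD • q.2 - sS • q.1) := by fun_prop
    exact ((Nt_contDiff.comp hl).const_smul σ).neg
  · have hs : 0 < sS + dD * c := by
      have : (0 : ℝ) < sS := by unfold sS; norm_num
      positivity
    set s := sS + dD * c with hsdef
    rw [hasGradientAt_iff_hasFDerivAt]
    have hg := (gtf_grad (dD • x - s • v)).hasFDerivAt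
    have hL : HasFDerivAt (fun v : E2 => dD • x - s • v) (-(s • ContinuousLinearMap.id ℝ E2)) v :=
      ((hasFDerivAt_id v).const_smul s).const_sub _
    have hc := ((hg.comp v hL).const_mul s⁻¹).const_mul σ
    have e : dD • (x - c • v) - sS • v = dD • x - s • v := by
      rw [hsdef, smul_sub, add_smul, mul_smul]
      abel
    refine hc.congr_fderiv ?_
    ext1 a
    unfold zetaT
    rw [e]
    simp only [smul_apply, ContinuousLinearMap.comp_apply, neg_apply,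
      ContinuousLinearMap.id_apply, InnerProductSpace.toDual_apply_apply, inner_neg_right, inner_neg_left, inner_smul_right,
      inner_smul_left, smul_eq_mul, conj_trivial]
    field_simp
  · rw [dpZ_zetaT, smul_apply, smul_apply, inner_smul_left, inner_smul_right,
      Nt_symm]
    simp
  · rcases hσ with rfl | rfl
    · right; rfl
    · left; norm_num
  · rw [dpZ_zetaT, smul_apply, inner_smul_left]
    simp only [conj_trivial, oscK]
    have e : -σ * (-(σ * dD) * ⟪fderiv ℝ Nt (dD • q.2 - sS • q.1) a, a⟫_ℝ) =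
        dD * ⟪fderiv ℝ Nt (dD • q.2 - sS • q.1) a, a⟫_ℝ := by
      linear_combination (dD * ⟪fderiv ℝ Nt (dD • q.2 - sS • q.1) a, a⟫_ℝ) * hσ2
    rw [e, mul_assoc, mul_assoc]
    exact ⟨mul_le_mul_of_nonneg_left (ha1 _ a).1 hD.le, mul_le_mul_of_nonneg_left (ha1 _ a).2 hD.le⟩
  · obtain ⟨slL, slL_apply, slL_norm_le⟩ := slL_exists
    have hF : ContDiff ℝ ∞ (fderiv ℝ Nt) := Nt_contDiff.fderiv_right (m := ∞) (by simp)
    have e : Osc.dpZ (zetaT σ) = (-(σ * dD)) • (fderiv ℝ Nt ∘ slL) := by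
      funext q
      rw [dpZ_zetaT, Pi.smul_apply, Function.comp_apply, slL_apply]
    have hj : (j : WithTop ℕ∞) ≤ (∞ : WithTop ℕ∞) := by exact_mod_cast le_top
    rw [e, iteratedFDeriv_const_smul_apply ((hF.comp slL.contDiff).of_le hj).contDiffAt,
      slL.iteratedFDeriv_comp_right hF q hj, norm_smul]
    have h1 := ContinuousMultilinearMap.norm_compContinuousLinearMap_le
      (iteratedFDeriv ℝ j (fderiv ℝ Nt) (slL q)) (fun _ => slL)
    rw [Finset.prod_const, Finset.card_univ, Fintype.card_fin] at h1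
    have h2 : ‖slL‖ ^ j ≤ 4 ^ j := pow_le_pow_left₀ (norm_nonneg _) slL_norm_le j
    have h3 : 0 ≤ A j := (norm_nonneg _).trans (hA j 0)
    have h4 : ‖-(σ * dD)‖ = dD := by
      rw [norm_neg, norm_mul, Real.norm_eq_abs, hσa, one_mul, Real.norm_of_nonneg hD.le]
    rw [h4]
    simp only [oscK]
    rw [mul_assoc]
    refine mul_le_mul_of_nonneg_left (h1.trans ?_) hD.le
    exact mul_le_mul (hA j _) h2 (by positivity) h3

/-- smooth compactly supported functions have bounded derivatives of all orders -/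
theorem sl_bdd_iter {E F : Type} [NormedAddCommGroup E] [NormedSpace ℝ E] [NormedAddCommGroup F] [NormedSpace ℝ F]
    {f : E → F} (hf : ContDiff ℝ ∞ f) (hc : HasCompactSupport f) :
    ∃ M : ℕ → ℝ, ∀ (j : ℕ) (x : E), ‖iteratedFDeriv ℝ j f x‖ ≤ M j := by
  have h : ∀ j : ℕ, ∃ C, ∀ x, ‖iteratedFDeriv ℝ j f x‖ ≤ C := fun j =>
    (hf.continuous_iteratedFDeriv (by exact_mod_cast le_top)).bounded_above_of_compact_support
      (hc.iteratedFDeriv j)
  choose M hM using h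
  exact ⟨M, hM⟩

/-- **BR-P2** the amplitude class.  `a₂ (w,t) = α(‖w‖²+t²)` is smooth with compact support on `E2 × ℝ`, so `‖iteratedFDeriv ℝ j a₂‖ ≤ M j`;
`v ↦ a₂ (z - v, t)` is `a₂` composed with an affine map of linear part of norm `≤ 1`; `chiV` is smooth with compact support; Leibniz `norm_iteratedFDeriv_mul_le`.
The bounds do not depend on `z = (dD/s) x`, `t = 1/s`. -/
theorem isAmpT {α : ℝ → ℂ} (hα : ShellAmp α) : ∃ Bb : ℕ → ℝ, ∀ (a1 : ℝ) (A : ℕ → ℝ), Osc.IsAmp (oscK a1 A Bb) (ampT α) := by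
  have hχs : ContDiff ℝ ∞ (fun v : E2 => (chiV v : ℂ)) := by
    unfold chiV
    exact Complex.ofRealCLM.contDiff.comp (bcut_contDiff.comp (contDiff_const.mul (contDiff_norm_sq ℝ)))
  have hχ0 : ∀ v : E2, chiV v ≠ 0 → ‖v‖ ≤ 1 := by
    intro v hv
    by_contra h
    push Not at h
    refine hv (bcut_zero ?_)
    nlinarith
  have hχc : HasCompactSupport (fun v : E2 => (chiV v : ℂ)) := by
    refine HasCompactSupport.intro (isCompact_closedBall (0 : E2) 1) fun v hv => ?_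
    by_contra h
    refine hv (mem_closedBall_zero_iff.2 (hχ0 v fun h0 => h ?_))
    rw [h0, Complex.ofReal_zero]
  set a2 : E2 × ℝ → ℂ := fun y => α (‖y.1‖ ^ 2 + y.2 ^ 2) with ha2
  have h2s : ContDiff ℝ ∞ a2 := hα.smooth.comp ((contDiff_fst.norm_sq ℝ).add (contDiff_snd.pow 2))
  have h2c : HasCompactSupport a2 := by
    refine HasCompactSupport.intro (isCompact_closedBall (0 : E2 × ℝ) 2) fun y hy => ?_
    by_contra h
    have h4 := (hα.supp _ h).2
    refine hy (mem_closedBall_zero_iff.2 ?_)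
    rw [Prod.norm_def]
    refine max_le ?_ ?_
    · refine abs_le_of_sq_le_sq' ?_ (by norm_num) |>.2
      nlinarith [sq_nonneg y.2]
    · rw [Real.norm_eq_abs]
      refine abs_le.2 (abs_le_of_sq_le_sq' ?_ (by norm_num))
      nlinarith [sq_nonneg ‖y.1‖]
  obtain ⟨Mχ, hMχ⟩ := sl_bdd_iter hχs hχc
  obtain ⟨M2, hM2⟩ := sl_bdd_iter h2s h2c
  have hMχ0 : ∀ j, 0 ≤ Mχ j := fun j => (norm_nonneg _).trans (hMχ j 0)
  have hM20 : ∀ j, 0 ≤ M2 j := fun j => (norm_nonneg _).trans (hM2 j 0)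
  set L : E2 →L[ℝ] E2 × ℝ := -(ContinuousLinearMap.inl ℝ E2 ℝ) with hLdef
  have hL : ‖L‖ ≤ 1 := by
    refine ContinuousLinearMap.opNorm_le_bound _ zero_le_one fun v => ?_
    rw [hLdef, neg_apply, norm_neg, ContinuousLinearMap.inl_apply, Prod.norm_def, norm_zero, one_mul]
    exact max_le le_rfl (norm_nonneg _)
  have hcomp : ∀ (z : E2) (t : ℝ), (fun v : E2 => α (‖z - v‖ ^ 2 + t ^ 2)) =
      (fun y => a2 ((z, t) + y)) ∘ L := by
    intro z t
    funext v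
    simp [ha2, hLdef, sub_eq_add_neg]
  have hsh : ∀ (z : E2) (t : ℝ), ContDiff ℝ ∞ (fun y => a2 ((z, t) + y)) := fun z t =>
    h2s.comp (contDiff_const.add contDiff_id)
  have hs2 : ∀ (z : E2) (t : ℝ), ContDiff ℝ ∞ (fun v : E2 => α (‖z - v‖ ^ 2 + t ^ 2)) := by
    intro z t
    rw [hcomp]
    exact (hsh z t).comp L.contDiff
  have hb2 : ∀ (z : E2) (t : ℝ) (j : ℕ) (v : E2),
      ‖iteratedFDeriv ℝ j (fun v : E2 => α (‖z - v‖ ^ 2 + t ^ 2)) v‖ ≤ M2 j := by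
    intro z t j v
    have hj : (j : WithTop ℕ∞) ≤ (∞ : WithTop ℕ∞) := by exact_mod_cast le_top
    rw [hcomp, L.iteratedFDeriv_comp_right (hsh z t) v hj, iteratedFDeriv_comp_add_left]
    refine (ContinuousMultilinearMap.norm_compContinuousLinearMap_le _ _).trans ?_
    rw [Finset.prod_const, Finset.card_univ, Fintype.card_fin]
    calc ‖iteratedFDeriv ℝ j a2 ((z, t) + L v)‖ * ‖L‖ ^ j ≤ M2 j * 1 :=
          mul_le_mul (hM2 j _) (pow_le_one₀ (norm_nonneg _) hL) (by positivity) (hM20 j)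
      _ = M2 j := mul_one _
  refine ⟨fun j => ∑ i ∈ Finset.range (j + 1), (j.choose i : ℝ) * Mχ i * M2 (j - i), fun a1 A =>
    ⟨fun c x v h => ?_, fun c x => ?_, fun c x j v => ?_⟩⟩
  · unfold ampT at h
    split_ifs at h with hc
    · refine ⟨hc.1, hc.2, hχ0 v fun h0 => h ?_⟩
      rw [h0, Complex.ofReal_zero, zero_mul]
    · exact absurd rfl h
  · by_cases hc : c ∈ Set.Icc (0 : ℝ) 1 ∧ ‖x‖ ≤ 1
    · have e : ampT α c x = fun v => (chiV v : ℂ) *
          α (‖(dD * (sS + dD * c)⁻¹) • x - v‖ ^ 2 + ((sS + dD * c)⁻¹) ^ 2) := by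
        funext v; unfold ampT; rw [if_pos hc]
      rw [e]
      exact hχs.mul (hs2 _ _)
    · have e : ampT α c x = fun _ => 0 := by
        funext v; unfold ampT; rw [if_neg hc]
      rw [e]
      exact contDiff_const
  · have hB0 : 0 ≤ ∑ i ∈ Finset.range (j + 1), (j.choose i : ℝ) * Mχ i * M2 (j - i) :=
      Finset.sum_nonneg fun i _ => mul_nonneg (mul_nonneg (Nat.cast_nonneg _) (hMχ0 i)) (hM20 _)
    by_cases hc : c ∈ Set.Icc (0 : ℝ) 1 ∧ ‖x‖ ≤ 1
    · have e : ampT α c x = fun v => (chiV v : ℂ) *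
          α (‖(dD * (sS + dD * c)⁻¹) • x - v‖ ^ 2 + ((sS + dD * c)⁻¹) ^ 2) := by
        funext v; unfold ampT; rw [if_pos hc]
      rw [e]
      refine (norm_iteratedFDeriv_mul_le hχs (hs2 _ _) v (by exact_mod_cast le_top)).trans ?_
      refine Finset.sum_le_sum fun i _ => ?_
      exact mul_le_mul (mul_le_mul_of_nonneg_left (hMχ i v) (Nat.cast_nonneg _)) (hb2 _ _ _ v)
        (norm_nonneg _) (mul_nonneg (Nat.cast_nonneg _) (hMχ0 i))
    · have e : ampT α c x = fun _ => 0 := by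
        funext v; unfold ampT; rw [if_neg hc]
      rw [e]
      have : iteratedFDeriv ℝ j (fun _ : E2 => (0 : ℂ)) v = 0 := by
        simp
      rw [this, norm_zero]
      exact hB0

/-- the sign of `μ` -/
noncomputable def sgn (μ : ℝ) : ℝ := if 0 ≤ μ then 1 else -1

theorem sgn_cases (μ : ℝ) : sgn μ = 1 ∨ sgn μ = -1 := by unfold sgn; split_ifs <;> simp

theorem abs_mul_sgn (μ : ℝ) : |μ| * sgn μ = μ := by
  unfold sgn; split_ifs with h
  · rw [abs_of_nonneg h, mul_one]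
  · rw [abs_of_neg (not_le.1 h)]; ring

/-- `c(t)` -/
noncomputable def cT (t : ℝ) : ℝ := (t⁻¹ - sS) / dD
/-- `x(z,t)` -/
noncomputable def xT (p : E2 × ℝ) : E2 := (p.2⁻¹ / dD) • p.1

/-- **BR-P3** the change of variables in the integrand (see the header; `gtf_eq` applies since `‖dD x - s v‖ = s ‖z - v‖ ≤ 4 · 2/10`; `chiV v = 1` on the support of `f`). -/
theorem slOp_eq_Elam (α : ℝ → ℂ) (μ : ℝ) {f : E2 → ℂ} (hf : ∀ v, f v ≠ 0 → ‖v‖ ≤ 1 / 10) {p : E2 × ℝ}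
    (hp : p ∈ Metric.closedBall (0 : E2) (1 / 10) ×ˢ Set.Icc (1 / 4 : ℝ) 4) :
    slOp α μ f p = Osc.Elam (2 * π * |μ|) (PhiT (sgn μ)) (ampT α) f (cT p.2, xT p) := by
  obtain ⟨z, t⟩ := p
  obtain ⟨hz, ht1, ht4⟩ := hp
  have hz' : ‖z‖ ≤ 1 / 10 := mem_closedBall_zero_iff.1 hz
  simp only at ht1 ht4
  have ht0 : 0 < t := by linarith
  have hD : (0 : ℝ) < dD := by unfold dD; norm_num
  have hu4 : t⁻¹ ≤ 4 := (inv_le_comm₀ ht0 (by norm_num)).2 (by linarith)
  have hu1 : 1 / 4 ≤ t⁻¹ := (le_inv_comm₀ (by norm_num) ht0).2 (by linarith)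
  have hs : sS + dD * cT t = t⁻¹ := by
    unfold cT
    field_simp
    ring
  have hx : dD • xT (z, t) = t⁻¹ • z := by
    unfold xT
    rw [smul_smul, mul_div_cancel₀ _ hD.ne']
  have hx2 : (dD * (t⁻¹)⁻¹) • xT (z, t) = z := by
    rw [mul_comm, mul_smul, hx, smul_smul, inv_inv, mul_inv_cancel₀ ht0.ne', one_smul]
  have hc : cT t ∈ Set.Icc (0 : ℝ) 1 ∧ ‖xT (z, t)‖ ≤ 1 := by
    refine ⟨⟨?_, ?_⟩, ?_⟩
    · unfold cT sS
      exact div_nonneg (by linarith) hD.le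
    · unfold cT sS
      rw [div_le_one hD]
      unfold dD
      linarith
    · unfold xT
      rw [norm_smul, Real.norm_of_nonneg (by positivity)]
      have h1 : t⁻¹ / dD ≤ 4 / dD := div_le_div_of_nonneg_right hu4 hD.le
      have h2 : (4 : ℝ) / dD ≤ 2 := by unfold dD; norm_num
      have h3 : 0 ≤ t⁻¹ / dD := by positivity
      simp only
      nlinarith [norm_nonneg z]
  unfold slOp Osc.Elam
  refine integral_congr_ae (Filter.Eventually.of_forall fun v => ?_)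
  by_cases hv : f v = 0
  · simp only [hv, mul_zero]
  have hv' := hf v hv
  have hzv : ‖z - v‖ ≤ 2 / 10 := (norm_sub_le _ _).trans (by linarith)
  simp only
  congr 1
  have hq : dD • xT (z, t) - (sS + dD * cT t) • v = t⁻¹ • (z - v) := by
    rw [hs, hx, smul_sub]
  have hqn : ‖t⁻¹ • (z - v)‖ = t⁻¹ * ‖z - v‖ := by
    rw [norm_smul, Real.norm_of_nonneg (by positivity)]
  have hq1 : ‖t⁻¹ • (z - v)‖ ≤ 1 := by
    rw [hqn]
    have : 0 ≤ t⁻¹ := by positivity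
    nlinarith [norm_nonneg (z - v)]
  have hphi : PhiT (sgn μ) (cT t) (xT (z, t)) v = sgn μ * Real.sqrt (‖z - v‖ ^ 2 + t ^ 2) := by
    unfold PhiT
    rw [hq, hs, gtf_eq hq1, hqn, inv_inv]
    congr 1
    have e : ‖z - v‖ ^ 2 + t ^ 2 = t ^ 2 * (1 + (t⁻¹ * ‖z - v‖) ^ 2) := by
      field_simp
      ring
    rw [e, Real.sqrt_mul (sq_nonneg t), Real.sqrt_sq ht0.le]
  have hamp : ampT α (cT t) (xT (z, t)) v = α (‖z - v‖ ^ 2 + t ^ 2) := by
    unfold ampT
    rw [if_pos hc, hs, hx2, inv_inv]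
    unfold chiV
    rw [bcut_one (by nlinarith [norm_nonneg v]), Complex.ofReal_one, one_mul]
  rw [hphi, hamp]
  congr 1
  unfold ee
  rw [mul_comm]
  congr 3
  linear_combination (-(2 * π * Real.sqrt (‖z - v‖ ^ 2 + t ^ 2))) * abs_mul_sgn μ

/-- **BR-P4** measurability (replace `f` by `hf.mk f`: `integral_congr_ae`; `StronglyMeasurable.integral_prod_right`; `gtf_continuous`, `Measurable.ite`). -/
theorem Elam_stronglyMeasurable {α : ℝ → ℂ} (hα : ShellAmp α) (σ lam : ℝ) {f : E2 → ℂ} (hf : AEStronglyMeasurable f volume) :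
    StronglyMeasurable (Osc.Elam lam (PhiT σ) (ampT α) f) := by
  have e : Osc.Elam lam (PhiT σ) (ampT α) f = Osc.Elam lam (PhiT σ) (ampT α) (hf.mk f) := by
    funext q
    unfold Osc.Elam
    refine integral_congr_ae ?_
    filter_upwards [hf.ae_eq_mk] with v hv
    rw [hv]
  rw [e]
  have hPhi : Measurable fun r : (ℝ × E2) × E2 => PhiT σ r.1.1 r.1.2 r.2 := by
    unfold PhiT
    refine measurable_const.mul (Measurable.mul ?_ ?_)
    · exact (Measurable.inv (by fun_prop))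
    · exact gtf_continuous.measurable.comp (by fun_prop)
  have hchi : Continuous chiV := by
    unfold chiV bcut
    exact Real.smoothTransition.continuous.comp (by fun_prop)
  have hamp : Measurable fun r : (ℝ × E2) × E2 => ampT α r.1.1 r.1.2 r.2 := by
    unfold ampT
    refine Measurable.ite ?_ ?_ measurable_const
    · have h1 : MeasurableSet {r : (ℝ × E2) × E2 | r.1.1 ∈ Set.Icc (0 : ℝ) 1} :=
        measurableSet_Icc.preimage (by fun_prop)
      have h2 : MeasurableSet {r : (ℝ × E2) × E2 | ‖r.1.2‖ ≤ 1} :=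
        measurableSet_le (by fun_prop) measurable_const
      exact h1.inter h2
    · refine Measurable.mul ?_ ?_
      · exact Complex.measurable_ofReal.comp (hchi.measurable.comp measurable_snd)
      · refine hα.smooth.continuous.measurable.comp ?_
        have hinv : Measurable fun r : (ℝ × E2) × E2 => (sS + dD * r.1.1)⁻¹ := Measurable.inv (by fun_prop)
        refine Measurable.add (Measurable.pow_const (Measurable.norm ?_) 2) (hinv.pow_const 2)
        exact ((measurable_const.mul hinv).smul (by fun_prop)).sub measurable_snd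
  have h1 : StronglyMeasurable fun r : (ℝ × E2) × E2 =>
      Complex.exp (Complex.I * ((lam * PhiT σ r.1.1 r.1.2 r.2 : ℝ) : ℂ)) * ampT α r.1.1 r.1.2 r.2 * hf.mk f r.2 := by
    refine StronglyMeasurable.mul (Measurable.stronglyMeasurable ?_)
      (hf.stronglyMeasurable_mk.comp_measurable measurable_snd)
    refine Measurable.mul ?_ hamp
    exact Complex.measurable_exp.comp
      (measurable_const.mul (Complex.measurable_ofReal.comp (measurable_const.mul hPhi)))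
  exact h1.integral_prod_right

/-- **BR-P5** the change of variables in the output.  Tonelli on `E2 × ℝ`; for fixed `t`: `z = (dD t) x`, `dz = (dD t)² dx ≤ 225 dx` (`Measure.addHaar_smul`/`lintegral_comp_smul`-type);
then `Ψ c = ∫⁻ x, F (c,x)`, `|cT' t| = 1/(dD t²) ≥ 1/60` and `lintegral_image_eq_lintegral_abs_deriv_mul` (`cT` injective on `[1/4,4]`). -/
theorem cov_bound (F : ℝ × E2 → ℝ≥0∞) (hF : Measurable F) :
    ∫⁻ p in Metric.closedBall (0 : E2) (1 / 10) ×ˢ Set.Icc (1 / 4 : ℝ) 4, F (cT p.2, xT p) ≤ ENNReal.ofReal 13500 * ∫⁻ q, F q := by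
  set Ψ : ℝ → ℝ≥0∞ := fun c => ∫⁻ x, F (c, x) with hΨdef
  have hΨ : Measurable Ψ := hF.lintegral_prod_right'
  have hcT : Measurable cT := by
    unfold cT
    exact (measurable_inv.sub_const _).div_const _
  have hxT : Measurable xT := by
    unfold xT
    exact ((measurable_inv.comp measurable_snd).div_const _).smul measurable_fst
  have hG : Measurable fun p : E2 × ℝ => F (cT p.2, xT p) := hF.comp ((hcT.comp measurable_snd).prodMk hxT)
  -- step 1: Tonelli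
  have s1 : ∫⁻ p in Metric.closedBall (0 : E2) (1 / 10) ×ˢ Set.Icc (1 / 4 : ℝ) 4, F (cT p.2, xT p)
      ≤ ∫⁻ t in Set.Icc (1 / 4 : ℝ) 4, ∫⁻ z : E2, F (cT t, (t⁻¹ / dD) • z) := by
    calc ∫⁻ p in Metric.closedBall (0 : E2) (1 / 10) ×ˢ Set.Icc (1 / 4 : ℝ) 4, F (cT p.2, xT p)
        ≤ ∫⁻ p in (Set.univ : Set E2) ×ˢ Set.Icc (1 / 4 : ℝ) 4, F (cT p.2, xT p) :=
          lintegral_mono_set (Set.prod_mono (Set.subset_univ _) le_rfl)
      _ = ∫⁻ p, F (cT p.2, xT p) ∂((volume.restrict (Set.univ : Set E2)).prod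
            (volume.restrict (Set.Icc (1 / 4 : ℝ) 4))) := by
          rw [Measure.volume_eq_prod, Measure.prod_restrict]
      _ = ∫⁻ t in Set.Icc (1 / 4 : ℝ) 4, ∫⁻ z : E2, F (cT t, (t⁻¹ / dD) • z) := by
          rw [Measure.restrict_univ, lintegral_prod_symm' _ hG]
          rfl
  -- step 2: dilation
  have s2 : ∀ t ∈ Set.Icc (1 / 4 : ℝ) 4, ∫⁻ z : E2, F (cT t, (t⁻¹ / dD) • z) ≤ ENNReal.ofReal 225 * Ψ (cT t) := by
    intro t ht
    have ht0 : 0 < t := by linarith [ht.1]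
    have hD : (0 : ℝ) < dD := by unfold dD; norm_num
    have hr : t⁻¹ / dD ≠ 0 := by positivity
    have hm : Measurable fun x : E2 => F (cT t, x) := hF.comp measurable_prodMk_left
    have hmap := Measure.map_addHaar_smul (volume : Measure E2) hr
    have hfin : Module.finrank ℝ E2 = 2 := by simp
    calc ∫⁻ z : E2, F (cT t, (t⁻¹ / dD) • z)
        = ∫⁻ x, F (cT t, x) ∂(Measure.map ((t⁻¹ / dD) • · : E2 → E2) volume) :=
          (lintegral_map hm (measurable_const_smul _)).symm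
      _ = ENNReal.ofReal |((t⁻¹ / dD) ^ Module.finrank ℝ E2)⁻¹| * Ψ (cT t) := by
          rw [hmap, lintegral_smul_measure]
          rfl
      _ ≤ ENNReal.ofReal 225 * Ψ (cT t) := by
          refine mul_le_mul_left (ENNReal.ofReal_le_ofReal ?_) _
          rw [hfin, abs_of_pos (by positivity)]
          have e : ((t⁻¹ / dD) ^ 2)⁻¹ = (dD * t) ^ 2 := by
            field_simp
          rw [e]
          have : dD * t ≤ 15 := by
            unfold dD
            linarith [ht.2]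
          have h0 : 0 ≤ dD * t := by positivity
          nlinarith
  -- step 3: substitution in `t`
  have s3 : ∫⁻ t in Set.Icc (1 / 4 : ℝ) 4, Ψ (cT t) ≤ ENNReal.ofReal 60 * ∫⁻ c, Ψ c := by
    have hder : ∀ t ∈ Set.Icc (1 / 4 : ℝ) 4, HasDerivWithinAt cT (-(t ^ 2)⁻¹ / dD) (Set.Icc (1 / 4 : ℝ) 4) t := by
      intro t ht
      have ht0 : t ≠ 0 := by linarith [ht.1]
      exact (((hasDerivAt_inv ht0).sub_const sS).div_const dD).hasDerivWithinAt
    have hinj : Set.InjOn cT (Set.Icc (1 / 4 : ℝ) 4) := by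
      intro t _ t' _ h
      unfold cT dD at h
      have h1 : t⁻¹ = t'⁻¹ := by
        have := (div_left_inj' (by norm_num : (15 / 4 : ℝ) ≠ 0)).1 h
        linarith
      exact inv_injective h1
    have himg := lintegral_image_eq_lintegral_abs_deriv_mul measurableSet_Icc hder hinj Ψ
    calc ∫⁻ t in Set.Icc (1 / 4 : ℝ) 4, Ψ (cT t)
        ≤ ∫⁻ t in Set.Icc (1 / 4 : ℝ) 4, ENNReal.ofReal 60 * (ENNReal.ofReal |-(t ^ 2)⁻¹ / dD| * Ψ (cT t)) := by
          refine setLIntegral_mono' measurableSet_Icc fun t ht => ?_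
          rw [← mul_assoc, ← ENNReal.ofReal_mul (by norm_num)]
          have ht0 : 0 < t := by linarith [ht.1]
          have h1 : (1 : ℝ) ≤ 60 * |-(t ^ 2)⁻¹ / dD| := by
            rw [abs_div, abs_neg, abs_of_pos (by positivity), abs_of_pos (by unfold dD; norm_num)]
            unfold dD
            have h2 : t ^ 2 ≤ 16 := by nlinarith [ht.2]
            have h3 : (16 : ℝ)⁻¹ ≤ (t ^ 2)⁻¹ := inv_anti₀ (by positivity) h2
            rw [div_eq_mul_inv]
            norm_num at h3 ⊢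
            linarith
          calc Ψ (cT t) = 1 * Ψ (cT t) := (one_mul _).symm
            _ ≤ ENNReal.ofReal (60 * |-(t ^ 2)⁻¹ / dD|) * Ψ (cT t) := by
                refine mul_le_mul_left ?_ _
                rw [← ENNReal.ofReal_one]
                exact ENNReal.ofReal_le_ofReal h1
      _ = ENNReal.ofReal 60 * ∫⁻ t in Set.Icc (1 / 4 : ℝ) 4, ENNReal.ofReal |-(t ^ 2)⁻¹ / dD| * Ψ (cT t) := by
          refine lintegral_const_mul _ ?_
          refine Measurable.mul ?_ (hΨ.comp hcT)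
          exact ENNReal.measurable_ofReal.comp
            (((measurable_id.pow_const 2).inv.neg.div_const dD).abs)
      _ = ENNReal.ofReal 60 * ∫⁻ c in cT '' Set.Icc (1 / 4 : ℝ) 4, Ψ c := by rw [himg]
      _ ≤ ENNReal.ofReal 60 * ∫⁻ c, Ψ c := mul_le_mul_right (setLIntegral_le_lintegral _ _) _
  have hprod : ∫⁻ q, F q = ∫⁻ c, Ψ c := by
    rw [Measure.volume_eq_prod, lintegral_prod _ hF.aemeasurable]
  calc ∫⁻ p in Metric.closedBall (0 : E2) (1 / 10) ×ˢ Set.Icc (1 / 4 : ℝ) 4, F (cT p.2, xT p)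
      ≤ ∫⁻ t in Set.Icc (1 / 4 : ℝ) 4, ∫⁻ z : E2, F (cT t, (t⁻¹ / dD) • z) := s1
    _ ≤ ∫⁻ t in Set.Icc (1 / 4 : ℝ) 4, ENNReal.ofReal 225 * Ψ (cT t) :=
        setLIntegral_mono' measurableSet_Icc s2
    _ = ENNReal.ofReal 225 * ∫⁻ t in Set.Icc (1 / 4 : ℝ) 4, Ψ (cT t) := lintegral_const_mul _ (hΨ.comp hcT)
    _ ≤ ENNReal.ofReal 225 * (ENNReal.ofReal 60 * ∫⁻ c, Ψ c) := mul_le_mul_right s3 _
    _ = ENNReal.ofReal 13500 * ∫⁻ q, F q := by
        rw [← mul_assoc, ← ENNReal.ofReal_mul (by norm_num), hprod]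
        norm_num

/-- **the sliced estimate** -/
theorem slice_bound (h : Osc.OSC) {α : ℝ → ℂ} (hα : ShellAmp α) {ν : ℝ} (hν0 : 0 < ν) (hν1 : ν < 1) :
    ∃ C : ℝ, 0 ≤ C ∧ ∀ μ : ℝ, 1 ≤ |μ| → SliceBd α μ (C * |μ| ^ (-1 + ν)) := by
  obtain ⟨a1, ha1⟩ := Nt_ell
  obtain ⟨A, hA⟩ := Nt_bound
  obtain ⟨Bb, hBb⟩ := isAmpT hα
  obtain ⟨C, hC⟩ := h (oscK a1 A Bb) (by simp only [oscK, dD]; norm_num) ν hν0
  refine ⟨24 * max C 0, by positivity, fun μ hμ f hf hsupp => ?_⟩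
  have hμ0 : 0 < |μ| := by linarith
  have hpi : (3 : ℝ) < π := Real.pi_gt_three
  have hlam : 2 ≤ 2 * π * |μ| := by nlinarith
  have hE := hC (2 * π * |μ|) hlam (PhiT (sgn μ)) (zetaT (sgn μ)) (isPhaseT ha1 hA Bb (sgn_cases μ)) (ampT α) (hBb a1 A) f hf
    (fun v hv => (hsupp v hv).trans (by simp only [oscK]; norm_num))
  have hmeas : Measurable (fun q : ℝ × E2 => ‖Osc.Elam (2 * π * |μ|) (PhiT (sgn μ)) (ampT α) f q‖ₑ ^ (3 : ℝ)) :=
    ((Elam_stronglyMeasurable hα (sgn μ) (2 * π * |μ|) hf.aestronglyMeasurable).measurable.enorm).pow_const _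
  have hcov := cov_bound _ hmeas
  have hΩ : MeasurableSet (Metric.closedBall (0 : E2) (1 / 10) ×ˢ Set.Icc (1 / 4 : ℝ) 4) :=
    Metric.isClosed_closedBall.measurableSet.prod measurableSet_Icc
  have h3 : (3 : ℝ≥0∞).toReal = 3 := by norm_num
  rw [eLpNorm_eq_lintegral_rpow_enorm_toReal (by norm_num) (by norm_num), h3] at hE ⊢
  have e1 : ∫⁻ p in Metric.closedBall (0 : E2) (1 / 10) ×ˢ Set.Icc (1 / 4 : ℝ) 4, ‖slOp α μ f p‖ₑ ^ (3 : ℝ) =
      ∫⁻ p in Metric.closedBall (0 : E2) (1 / 10) ×ˢ Set.Icc (1 / 4 : ℝ) 4,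
        ‖Osc.Elam (2 * π * |μ|) (PhiT (sgn μ)) (ampT α) f (cT p.2, xT p)‖ₑ ^ (3 : ℝ) :=
    setLIntegral_congr_fun hΩ fun p hp => by rw [slOp_eq_Elam α μ hsupp hp]
  rw [e1]
  have h24 : (ENNReal.ofReal 13500) ^ (1 / 3 : ℝ) ≤ ENNReal.ofReal 24 := by
    rw [ENNReal.ofReal_rpow_of_pos (by norm_num)]
    apply ENNReal.ofReal_le_ofReal
    have : (13500 : ℝ) ≤ 24 ^ (3 : ℝ) := by norm_num
    calc (13500 : ℝ) ^ (1 / 3 : ℝ) ≤ ((24 : ℝ) ^ (3 : ℝ)) ^ (1 / 3 : ℝ) := Real.rpow_le_rpow (by norm_num) this (by norm_num)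
      _ = 24 := by rw [← Real.rpow_mul (by norm_num)]; norm_num
  have hrp : (2 * π * |μ|) ^ (-1 + ν) ≤ |μ| ^ (-1 + ν) :=
    Real.rpow_le_rpow_of_nonpos hμ0 (by nlinarith) (by linarith)
  have hrp0 : 0 ≤ (2 * π * |μ|) ^ (-1 + ν) := by positivity
  calc (∫⁻ p in Metric.closedBall (0 : E2) (1 / 10) ×ˢ Set.Icc (1 / 4 : ℝ) 4,
        ‖Osc.Elam (2 * π * |μ|) (PhiT (sgn μ)) (ampT α) f (cT p.2, xT p)‖ₑ ^ (3 : ℝ)) ^ (1 / 3 : ℝ)
      ≤ (ENNReal.ofReal 13500 * ∫⁻ q, ‖Osc.Elam (2 * π * |μ|) (PhiT (sgn μ)) (ampT α) f q‖ₑ ^ (3 : ℝ)) ^ (1 / 3 : ℝ) :=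
        ENNReal.rpow_le_rpow hcov (by norm_num)
    _ = (ENNReal.ofReal 13500) ^ (1 / 3 : ℝ) *
          (∫⁻ q, ‖Osc.Elam (2 * π * |μ|) (PhiT (sgn μ)) (ampT α) f q‖ₑ ^ (3 : ℝ)) ^ (1 / 3 : ℝ) :=
        ENNReal.mul_rpow_of_nonneg _ _ (by norm_num)
    _ ≤ ENNReal.ofReal 24 * (ENNReal.ofReal (C * (2 * π * |μ|) ^ (-1 + ν)) * eLpNorm f 3 volume) :=
        mul_le_mul' h24 hE
    _ = ENNReal.ofReal (24 * (C * (2 * π * |μ|) ^ (-1 + ν))) * eLpNorm f 3 volume := by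
        rw [← mul_assoc, ← ENNReal.ofReal_mul (by norm_num)]
    _ ≤ ENNReal.ofReal (24 * max C 0 * |μ| ^ (-1 + ν)) * eLpNorm f 3 volume := by
        refine mul_le_mul_left (ENNReal.ofReal_le_ofReal ?_) _
        have : C * (2 * π * |μ|) ^ (-1 + ν) ≤ max C 0 * |μ| ^ (-1 + ν) :=
          mul_le_mul (le_max_left _ _) hrp hrp0 (le_max_right _ _)
        linarith

end Claimed.Agent.R255.BR
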