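import Claimed.Agent.R255.BR.Tools

/-!
# R255 / BR / Split : `ℝ³ = ℝ² × ℝ`                                        (architect helper9)

`J (v, h) = (v₀, v₁, h)`.  Leaves **BR-J** (Mathlib only).  Statements frozen, edit in place.
-/

set_option autoImplicit false

namespace Claimed.Agent.R255.BR

open MeasureTheory Complex
open scoped ENNReal ContDiff InnerProductSpace Real

/-- `(v, h) ↦ (v₀, v₁, h)` -/
noncomputable def J (p : E2 × ℝ) : E3 := WithLp.toLp 2 ![p.1 0, p.1 1, p.2]

/-- the inverse of `J` -/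
noncomputable def Ji (x : E3) : E2 × ℝ := (WithLp.toLp 2 ![x 0, x 1], x 2)

/-- the third basis vector -/
noncomputable def e3 : E3 := J (0, 1)

theorem J_Ji (x : E3) : J (Ji x) = x := by
  ext i; fin_cases i <;> simp [J, Ji]

theorem Ji_J (p : E2 × ℝ) : Ji (J p) = p := by
  refine Prod.ext ?_ ?_
  · ext i; fin_cases i <;> simp [J, Ji]
  · simp [J, Ji]

theorem J_sub (p q : E2 × ℝ) : J (p - q) = J p - J q := by
  ext i; fin_cases i <;> simp [J]

theorem J_add (p q : E2 × ℝ) : J (p + q) = J p + J q := by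
  ext i; fin_cases i <;> simp [J]

theorem J_smul (c : ℝ) (p : E2 × ℝ) : J (c • p) = c • J p := by
  ext i; fin_cases i <;> simp [J]

theorem norm_J_sq (p : E2 × ℝ) : ‖J p‖ ^ 2 = ‖p.1‖ ^ 2 + p.2 ^ 2 := by
  rw [EuclideanSpace.norm_sq_eq, EuclideanSpace.norm_sq_eq, Fin.sum_univ_three, Fin.sum_univ_two]
  simp [J]

theorem inner_J (p q : E2 × ℝ) : ⟪J p, J q⟫_ℝ = ⟪p.1, q.1⟫_ℝ + p.2 * q.2 := by
  simp only [PiLp.inner_apply, Fin.sum_univ_three, Fin.sum_univ_two]
  simp [J]
  ring

theorem continuous_J : Continuous J := by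
  refine (PiLp.continuous_toLp 2 _).comp (continuous_pi fun i => ?_)
  fin_cases i
  · exact (EuclideanSpace.proj (𝕜 := ℝ) (0 : Fin 2)).continuous.comp continuous_fst
  · exact (EuclideanSpace.proj (𝕜 := ℝ) (1 : Fin 2)).continuous.comp continuous_fst
  · exact continuous_snd

theorem continuous_Ji : Continuous Ji := by
  refine Continuous.prodMk ((PiLp.continuous_toLp 2 _).comp (continuous_pi fun i => ?_))
    (EuclideanSpace.proj (𝕜 := ℝ) (2 : Fin 3)).continuous
  fin_cases i
  · exact (EuclideanSpace.proj (𝕜 := ℝ) (0 : Fin 3)).continuous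
  · exact (EuclideanSpace.proj (𝕜 := ℝ) (1 : Fin 3)).continuous

/-- **BR-J1** `J` preserves Lebesgue measure.  Route: `EuclideanSpace.volume_preserving_measurableEquiv` (= `PiLp.volume_preserving_ofLp`/`toLp`) for `Fin 3` and `Fin 2`,
`volume_preserving_piFinSuccAbove (fun _ => ℝ) (Fin.last 2)`, `MeasurePreserving.prod`, `Measure.prod_swap`/`measurePreserving_swap`. -/
theorem measurePreserving_J : MeasurePreserving J (volume : Measure (E2 × ℝ)) (volume : Measure E3) := by
  have h1 : MeasurePreserving (Prod.map (WithLp.ofLp : E2 → Fin 2 → ℝ) (id : ℝ → ℝ)) volume volume :=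
    (PiLp.volume_preserving_ofLp (Fin 2)).prod (MeasurePreserving.id volume)
  have h2 : MeasurePreserving (Prod.swap : (Fin 2 → ℝ) × ℝ → ℝ × (Fin 2 → ℝ)) volume volume :=
    Measure.measurePreserving_swap
  have h3 := (volume_preserving_piFinSuccAbove (fun _ : Fin 3 => ℝ) (Fin.last 2)).symm
  have h4 := PiLp.volume_preserving_toLp (Fin 3)
  have h5 := h4.comp (h3.comp (h2.comp h1))
  have h6 : J = WithLp.toLp 2 ∘ ⇑(MeasurableEquiv.piFinSuccAbove (fun _ : Fin 3 => ℝ) (Fin.last 2)).symm ∘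
      Prod.swap ∘ Prod.map (WithLp.ofLp : E2 → Fin 2 → ℝ) (id : ℝ → ℝ) := by
    funext p
    ext i
    fin_cases i
    · simp only [J, MeasurableEquiv.piFinSuccAbove]
      exact (Fin.insertNth_apply_succAbove (α := fun _ : Fin 3 => ℝ) 2 p.2 p.1.ofLp 0).symm
    · simp only [J, MeasurableEquiv.piFinSuccAbove]
      exact (Fin.insertNth_apply_succAbove (α := fun _ : Fin 3 => ℝ) 2 p.2 p.1.ofLp 1).symm
    · simp only [J, MeasurableEquiv.piFinSuccAbove]
      exact (Fin.insertNth_apply_same (α := fun _ : Fin 3 => ℝ) 2 p.2 p.1.ofLp).symm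
  rw [h6]
  exact h5

theorem measurePreserving_Ji : MeasurePreserving Ji (volume : Measure E3) (volume : Measure (E2 × ℝ)) := by
  let e : E2 × ℝ ≃ᵐ E3 := ⟨⟨J, Ji, Ji_J, J_Ji⟩, continuous_J.measurable, continuous_Ji.measurable⟩
  exact (show MeasurePreserving e volume volume from measurePreserving_J).symm

/-- `J` as a measurable equivalence -/
noncomputable def Jm : E2 × ℝ ≃ᵐ E3 where
  toFun := J
  invFun := Ji
  left_inv := Ji_J
  right_inv := J_Ji
  measurable_toFun := continuous_J.measurable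
  measurable_invFun := continuous_Ji.measurable

theorem integral_J (F : E3 → ℂ) : ∫ x, F x = ∫ p : E2 × ℝ, F (J p) :=
  (measurePreserving_J.integral_comp Jm.measurableEmbedding F).symm

theorem lintegral_J (F : E3 → ℝ≥0∞) : ∫⁻ x, F x = ∫⁻ p : E2 × ℝ, F (J p) :=
  (measurePreserving_J.lintegral_comp_emb Jm.measurableEmbedding F).symm

/-- **BR-J2** -/
theorem eLpNorm_J (F : E3 → ℂ) (S : Set (E2 × ℝ)) :
    eLpNorm F 3 (volume.restrict (J '' S)) = eLpNorm (fun p => F (J p)) 3 (volume.restrict S) := by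
  have h1 : MeasurePreserving J (volume.restrict S) (volume.restrict (J '' S)) :=
    measurePreserving_J.restrict_image_emb Jm.measurableEmbedding S
  rw [← h1.map_eq]
  exact Jm.measurableEmbedding.eLpNorm_map_measure

theorem eLpNorm_J_univ (F : E3 → ℂ) : eLpNorm F 3 volume = eLpNorm (fun p => F (J p)) 3 volume := by
  have := eLpNorm_J F Set.univ
  rwa [Set.image_univ_of_surjective (fun x => ⟨Ji x, J_Ji x⟩), Measure.restrict_univ, Measure.restrict_univ] at this

theorem memLp_J {F : E3 → ℂ} (hF : MemLp F 3 volume) : MemLp (fun p => F (J p)) 3 volume :=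
  hF.comp_measurePreserving measurePreserving_J

end Claimed.Agent.R255.BR
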