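import Claimed.Agent.R255.BR.Defs

/-!
# R255 / BR / Tools : Minkowski's integral inequality at `p = 3`, algebra of `KBd`          (architect helper9)

Every `sorry` is a leaf (Mathlib only).  Plans in the doc-strings.  EDIT IN PLACE, statements are frozen.
-/

set_option autoImplicit false
set_option linter.unusedSectionVars false

namespace Claimed.Agent.R255.BR

open MeasureTheory Complex
open scoped ENNReal ContDiff InnerProductSpace Real

section mink
variable {X Y : Type*} [MeasurableSpace X] [MeasurableSpace Y] (μ : Measure X) (ν : Measure Y) [SFinite μ] [SFinite ν]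

theorem mink3_cube (x : ℝ≥0∞) : x ^ (3 : ℝ) = x * x * x := by
  rw [show (3 : ℝ) = ((3 : ℕ) : ℝ) by norm_num, ENNReal.rpow_natCast]
  ring

theorem mink3_holder (f₁ f₂ f₃ : Y → ℝ≥0∞) (h₁ : Measurable f₁) (h₂ : Measurable f₂) (h₃ : Measurable f₃) :
    ∫⁻ b, f₁ b * f₂ b * f₃ b ∂ν ≤ (∫⁻ b, f₁ b ^ (3 : ℝ) ∂ν) ^ (1 / 3 : ℝ) * (∫⁻ b, f₂ b ^ (3 : ℝ) ∂ν) ^ (1 / 3 : ℝ)
      * (∫⁻ b, f₃ b ^ (3 : ℝ) ∂ν) ^ (1 / 3 : ℝ) := by
  have h := ENNReal.lintegral_prod_norm_pow_le (μ := ν) (Finset.univ : Finset (Fin 3))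
    (f := ![fun b => f₁ b ^ (3 : ℝ), fun b => f₂ b ^ (3 : ℝ), fun b => f₃ b ^ (3 : ℝ)])
    (p := fun _ => (1 / 3 : ℝ)) (by
      intro i _
      fin_cases i
      · exact (h₁.pow_const _).aemeasurable
      · exact (h₂.pow_const _).aemeasurable
      · exact (h₃.pow_const _).aemeasurable) (by simp) (fun _ _ => by norm_num)
  simp only [Fin.prod_univ_three, Matrix.cons_val_zero, Matrix.cons_val_one, Matrix.cons_val_two,
    Matrix.head_cons, Matrix.tail_cons] at h
  have e : ∀ x : ℝ≥0∞, (x ^ (3 : ℝ)) ^ (1 / 3 : ℝ) = x := fun x => by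
    rw [← ENNReal.rpow_mul]; norm_num
  simpa only [e] using h

theorem mink3_swap (F : X → Y → ℝ≥0∞) (hF : Measurable (Function.uncurry F)) (g : Y → ℝ≥0∞) (hg : Measurable g) :
    ∫⁻ b, g b * ∫⁻ a, F a b ∂μ ∂ν = ∫⁻ a, ∫⁻ b, g b * F a b ∂ν ∂μ := by
  have h1 : ∀ b, g b * ∫⁻ a, F a b ∂μ = ∫⁻ a, g b * F a b ∂μ := fun b =>
    (lintegral_const_mul _ hF.of_uncurry_right).symm
  simp only [h1]
  refine lintegral_lintegral_swap ?_
  exact ((hg.comp measurable_fst).mul (hF.comp measurable_swap)).aemeasurable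

/-- **BR-T1a** Minkowski's integral inequality, `p = 3`, measurable integrand.
PLAN (no division): `H b = ∫⁻ a, F a b`.  `H b ^ 3 = ∫⁻ a₁, ∫⁻ a₂, ∫⁻ a₃, F a₁ b * F a₂ b * F a₃ b` (`lintegral_const_mul`, `lintegral_mul_const`);
Tonelli (`lintegral_lintegral_swap`) moves `∫⁻ b` inside; three-function Hölder `ENNReal.lintegral_prod_norm_pow_le` (weights `1/3`, functions `F aᵢ · ^ 3`)
or twice `ENNReal.lintegral_mul_le_Lp_mul_Lq`; then the triple integral factors as `(∫⁻ a, N a)^3`, `N a = (∫⁻ b, F a b ^ 3)^{1/3}`. -/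
theorem mink3_meas (F : X → Y → ℝ≥0∞) (hF : Measurable (Function.uncurry F)) :
    (∫⁻ b, (∫⁻ a, F a b ∂μ) ^ (3 : ℝ) ∂ν) ^ (1 / 3 : ℝ) ≤ ∫⁻ a, (∫⁻ b, F a b ^ (3 : ℝ) ∂ν) ^ (1 / 3 : ℝ) ∂μ := by
  set H : Y → ℝ≥0∞ := fun b => ∫⁻ a, F a b ∂μ with hH
  set N : X → ℝ≥0∞ := fun a => (∫⁻ b, F a b ^ (3 : ℝ) ∂ν) ^ (1 / 3 : ℝ) with hN
  set S : ℝ≥0∞ := ∫⁻ a, N a ∂μ with hS
  have hHm : Measurable H := hF.lintegral_prod_left'
  have hNm : Measurable N :=
    (Measurable.lintegral_prod_right' (f := fun p : X × Y => F p.1 p.2 ^ (3 : ℝ)) (hF.pow_const _)).pow_const _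
  have hFa : ∀ a, Measurable (F a) := fun a => hF.of_uncurry_left
  have step3 : ∀ a₁ a₂, ∫⁻ b, (F a₁ b * F a₂ b) * H b ∂ν ≤ N a₁ * N a₂ * S := by
    intro a₁ a₂
    have e : ∫⁻ b, (F a₁ b * F a₂ b) * H b ∂ν = ∫⁻ a, ∫⁻ b, (F a₁ b * F a₂ b) * F a b ∂ν ∂μ :=
      mink3_swap μ ν F hF (fun b => F a₁ b * F a₂ b) ((hFa a₁).mul (hFa a₂))
    rw [e, hS, ← lintegral_const_mul _ hNm]
    exact lintegral_mono fun a₃ => mink3_holder ν _ _ _ (hFa a₁) (hFa a₂) (hFa a₃)
  have step2 : ∀ a₁, ∫⁻ b, (F a₁ b * H b) * H b ∂ν ≤ N a₁ * S * S := by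
    intro a₁
    have e : ∫⁻ b, (F a₁ b * H b) * H b ∂ν = ∫⁻ a, ∫⁻ b, (F a₁ b * H b) * F a b ∂ν ∂μ :=
      mink3_swap μ ν F hF (fun b => F a₁ b * H b) ((hFa a₁).mul hHm)
    rw [e]
    calc ∫⁻ a₂, ∫⁻ b, F a₁ b * H b * F a₂ b ∂ν ∂μ
        = ∫⁻ a₂, ∫⁻ b, (F a₁ b * F a₂ b) * H b ∂ν ∂μ := by
          refine lintegral_congr fun a₂ => lintegral_congr fun b => ?_
          ring
      _ ≤ ∫⁻ a₂, N a₁ * S * N a₂ ∂μ := by
          refine lintegral_mono fun a₂ => (step3 a₁ a₂).trans_eq ?_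
          ring
      _ = N a₁ * S * S := by rw [lintegral_const_mul _ hNm]
  have step1 : ∫⁻ b, (H b * H b) * H b ∂ν ≤ S * S * S := by
    have e : ∫⁻ b, (H b * H b) * H b ∂ν = ∫⁻ a, ∫⁻ b, (H b * H b) * F a b ∂ν ∂μ :=
      mink3_swap μ ν F hF (fun b => H b * H b) (hHm.mul hHm)
    rw [e]
    calc ∫⁻ a₁, ∫⁻ b, H b * H b * F a₁ b ∂ν ∂μ
        = ∫⁻ a₁, ∫⁻ b, (F a₁ b * H b) * H b ∂ν ∂μ := by
          refine lintegral_congr fun a₁ => lintegral_congr fun b => ?_
          ring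
      _ ≤ ∫⁻ a₁, S * S * N a₁ ∂μ := by
          refine lintegral_mono fun a₁ => (step2 a₁).trans_eq ?_
          ring
      _ = S * S * S := by rw [lintegral_const_mul _ hNm]
  have h4 : ∫⁻ b, H b ^ (3 : ℝ) ∂ν ≤ S ^ (3 : ℝ) := by
    simp only [mink3_cube]
    exact step1
  calc (∫⁻ b, H b ^ (3 : ℝ) ∂ν) ^ (1 / 3 : ℝ) ≤ (S ^ (3 : ℝ)) ^ (1 / 3 : ℝ) :=
        ENNReal.rpow_le_rpow h4 (by norm_num)
    _ = S := by rw [← ENNReal.rpow_mul]; norm_num

/-- **BR-T1b** the same for a.e.-measurable integrands (`hF.mk`, `Measure.ae_ae_of_ae_prod`, and the swapped version via `Measure.prod_swap`). -/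
theorem mink3_lintegral (F : X → Y → ℝ≥0∞) (hF : AEMeasurable (Function.uncurry F) (μ.prod ν)) :
    (∫⁻ b, (∫⁻ a, F a b ∂μ) ^ (3 : ℝ) ∂ν) ^ (1 / 3 : ℝ) ≤ ∫⁻ a, (∫⁻ b, F a b ^ (3 : ℝ) ∂ν) ^ (1 / 3 : ℝ) ∂μ := by
  set G : X × Y → ℝ≥0∞ := hF.mk _ with hG
  have hGm : Measurable G := hF.measurable_mk
  have hae : ∀ᵐ p ∂μ.prod ν, Function.uncurry F p = G p := hF.ae_eq_mk
  have h1 : ∀ᵐ a ∂μ, ∀ᵐ b ∂ν, F a b = G (a, b) := Measure.ae_ae_of_ae_prod hae
  have hae' : ∀ᵐ q ∂ν.prod μ, Function.uncurry F q.swap = G q.swap :=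
    (Measure.measurePreserving_swap (μ := ν) (ν := μ)).quasiMeasurePreserving.ae hae
  have h2 : ∀ᵐ b ∂ν, ∀ᵐ a ∂μ, F a b = G (a, b) := Measure.ae_ae_of_ae_prod hae'
  have e1 : ∫⁻ b, (∫⁻ a, F a b ∂μ) ^ (3 : ℝ) ∂ν = ∫⁻ b, (∫⁻ a, G (a, b) ∂μ) ^ (3 : ℝ) ∂ν := by
    refine lintegral_congr_ae ?_
    filter_upwards [h2] with b hb
    rw [lintegral_congr_ae hb]
  have e2 : ∫⁻ a, (∫⁻ b, F a b ^ (3 : ℝ) ∂ν) ^ (1 / 3 : ℝ) ∂μ
      = ∫⁻ a, (∫⁻ b, G (a, b) ^ (3 : ℝ) ∂ν) ^ (1 / 3 : ℝ) ∂μ := by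
    refine lintegral_congr_ae ?_
    filter_upwards [h1] with a ha
    congr 1
    refine lintegral_congr_ae ?_
    filter_upwards [ha] with b hb
    rw [hb]
  rw [e1, e2]
  exact mink3_meas μ ν (fun a b => G (a, b)) hGm

/-- **BR-T1c** `eLpNorm` form (`enorm_integral_le_lintegral_enorm`, `eLpNorm_eq_lintegral_rpow_enorm`, `mink3_lintegral`). -/
theorem mink3 (F : X → Y → ℂ) (hF : AEStronglyMeasurable (Function.uncurry F) (μ.prod ν)) :
    eLpNorm (fun b => ∫ a, F a b ∂μ) 3 ν ≤ ∫⁻ a, eLpNorm (F a) 3 ν ∂μ := by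
  have h3 : (3 : ℝ≥0∞).toReal = 3 := by norm_num
  have e : ∀ g : Y → ℂ, eLpNorm g 3 ν = (∫⁻ b, ‖g b‖ₑ ^ (3 : ℝ) ∂ν) ^ (1 / 3 : ℝ) := fun g => by
    rw [eLpNorm_eq_lintegral_rpow_enorm_toReal (by norm_num) (by norm_num), h3]
  rw [e]
  simp only [e]
  refine le_trans ?_ (mink3_lintegral μ ν (fun a b => ‖F a b‖ₑ) hF.enorm)
  refine ENNReal.rpow_le_rpow (lintegral_mono fun b => ?_) (by norm_num)
  exact ENNReal.rpow_le_rpow (enorm_integral_le_lintegral_enorm _) (by norm_num)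

end mink

section kop
variable {k k₁ k₂ f : E3 → ℂ} {C C₁ C₂ : ℝ}

theorem norm_ee (θ : ℝ) : ‖ee θ‖ = 1 := by
  unfold ee; exact Complex.norm_exp_ofReal_mul_I _

theorem continuous_ee : Continuous ee := by
  unfold ee; fun_prop

/-- **BR-T2a** (Hölder: `k (z - ·)` is bounded with compact support, `f ∈ L³ ⊆ L¹_loc`). -/
theorem kop_integrable (hk : CK k) (hf : MemLp f 3 volume) (z : E3) : Integrable (fun y => k (z - y) * f y) volume := by
  have h := hk.supp.convolutionExists_right (ContinuousLinearMap.mul ℂ ℂ) (hf.locallyIntegrable (by norm_num)) hk.cont z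
  unfold ConvolutionExistsAt at h
  refine h.congr (Filter.Eventually.of_forall fun y => ?_)
  simp [mul_comm]

/-- **BR-T2b** (`kop k f = f ⋆ k`; `HasCompactSupport.continuous_convolution_right`, `MemLp.locallyIntegrable`). -/
theorem kop_continuous (hk : CK k) (hf : MemLp f 3 volume) : Continuous (kop k f) := by
  have h := hk.supp.continuous_convolution_right (ContinuousLinearMap.mul ℂ ℂ) (μ := volume)
    (hf.locallyIntegrable (by norm_num)) hk.cont
  have e : kop k f = convolution f k (ContinuousLinearMap.mul ℂ ℂ) volume := by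
    funext z
    unfold kop convolution
    refine integral_congr_ae (Filter.Eventually.of_forall fun y => ?_)
    simp [mul_comm]
  rw [e]
  exact h

theorem KBd.mono (h : KBd k C₁) (hC : C₁ ≤ C₂) : KBd k C₂ := fun f hf =>
  (h f hf).trans (mul_le_mul_left (ENNReal.ofReal_le_ofReal hC) _)

/-- **BR-T2c** -/
theorem KBd.add (hk₁ : CK k₁) (hk₂ : CK k₂) (h₁ : KBd k₁ C₁) (h₂ : KBd k₂ C₂) (hC₁ : 0 ≤ C₁) (hC₂ : 0 ≤ C₂) :
    KBd (fun w => k₁ w + k₂ w) (C₁ + C₂) := by
  intro f hf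
  have e : kop (fun w => k₁ w + k₂ w) f = kop k₁ f + kop k₂ f := by
    funext z
    simp only [kop, Pi.add_apply, add_mul]
    exact integral_add (kop_integrable hk₁ hf z) (kop_integrable hk₂ hf z)
  rw [e, ENNReal.ofReal_add hC₁ hC₂, add_mul]
  exact (eLpNorm_add_le (kop_continuous hk₁ hf).aestronglyMeasurable
    (kop_continuous hk₂ hf).aestronglyMeasurable (by norm_num)).trans (add_le_add (h₁ f hf) (h₂ f hf))

/-- **BR-T2d** -/
theorem KBd.const_mul (h : KBd k C) (c : ℂ) : KBd (fun w => c * k w) (‖c‖ * C) := by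
  intro f hf
  have e : kop (fun w => c * k w) f = c • kop k f := by
    funext z
    simp only [kop, Pi.smul_apply, smul_eq_mul, mul_assoc]
    exact integral_const_mul _ _
  rw [e, eLpNorm_const_smul, ENNReal.ofReal_mul (norm_nonneg _), ofReal_norm, mul_assoc]
  exact mul_le_mul_right (h f hf) _

theorem CK.add (hk₁ : CK k₁) (hk₂ : CK k₂) : CK (fun w => k₁ w + k₂ w) :=
  ⟨hk₁.cont.add hk₂.cont, hk₁.supp.add hk₂.supp⟩

theorem CK.const_mul (hk : CK k) (c : ℂ) : CK (fun w => c * k w) :=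
  ⟨continuous_const.mul hk.cont, hk.supp.mul_left⟩

theorem CK.zero : CK (fun _ => 0) := ⟨continuous_const, HasCompactSupport.zero⟩

theorem KBd.zero : KBd (fun _ => 0) 0 := by
  intro f _
  have : kop (fun _ => 0) f = fun _ => 0 := by funext z; simp [kop]
  rw [this]; simp

theorem CK.sum {ι : Type*} (s : Finset ι) {κ : ι → E3 → ℂ} (h : ∀ i ∈ s, CK (κ i)) : CK (fun w => ∑ i ∈ s, κ i w) := by
  classical
  induction s using Finset.induction_on with
  | empty => simpa using CK.zero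
  | insert a s ha ih =>
    simp only [Finset.sum_insert ha]
    exact (h a (Finset.mem_insert_self _ _)).add (ih fun i hi => h i (Finset.mem_insert_of_mem hi))

theorem KBd.sum {ι : Type*} (s : Finset ι) {κ : ι → E3 → ℂ} {c : ι → ℝ} (hκ : ∀ i ∈ s, CK (κ i)) (h : ∀ i ∈ s, KBd (κ i) (c i))
    (hc : ∀ i ∈ s, 0 ≤ c i) : KBd (fun w => ∑ i ∈ s, κ i w) (∑ i ∈ s, c i) := by
  classical
  induction s using Finset.induction_on with
  | empty => simpa using KBd.zero
  | insert a s ha ih =>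
    simp only [Finset.sum_insert ha]
    exact KBd.add (hκ a (Finset.mem_insert_self _ _)) (CK.sum s fun i hi => hκ i (Finset.mem_insert_of_mem hi))
      (h a (Finset.mem_insert_self _ _))
      (ih (fun i hi => hκ i (Finset.mem_insert_of_mem hi)) (fun i hi => h i (Finset.mem_insert_of_mem hi))
        (fun i hi => hc i (Finset.mem_insert_of_mem hi)))
      (hc a (Finset.mem_insert_self _ _)) (Finset.sum_nonneg fun i hi => hc i (Finset.mem_insert_of_mem hi))

/-- **BR-T3** Young's inequality.  `kop k f z = ∫ w, k w * f (z - w)` (`integral_sub_left_eq_self`), `mink3`, translation invariance of `eLpNorm`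
(`eLpNorm_comp_measurePreserving` with `measurePreserving_sub_right`/`sub_left`), `ofReal_integral_norm_eq_lintegral_enorm`. -/
theorem KBd_young (hk : CK k) : KBd k (∫ w, ‖k w‖) := by
  intro f hf
  have e : kop k f = fun z => ∫ w, k w * f (z - w) := by
    funext z
    have h := integral_sub_left_eq_self (fun y => k (z - y) * f y) (volume : Measure E3) z
    simp only [sub_sub_cancel] at h
    exact h.symm
  have hmeas : AEStronglyMeasurable (Function.uncurry fun w z => k w * f (z - w))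
      ((volume : Measure E3).prod (volume : Measure E3)) := by
    have h := (hk.cont.aestronglyMeasurable (μ := (volume : Measure E3))).convolution_integrand
      (ContinuousLinearMap.mul ℂ ℂ) hf.aestronglyMeasurable
    exact h.prod_swap
  rw [e]
  refine (mink3 volume volume (fun w z => k w * f (z - w)) hmeas).trans (le_of_eq ?_)
  have h1 : ∀ w, eLpNorm (fun z => k w * f (z - w)) 3 volume = ‖k w‖ₑ * eLpNorm f 3 volume := by
    intro w
    have h2 : (fun z => k w * f (z - w)) = k w • (f ∘ fun z => z - w) := by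
      funext z; simp
    rw [h2, eLpNorm_const_smul,
      eLpNorm_comp_measurePreserving hf.aestronglyMeasurable (measurePreserving_sub_right volume w)]
  simp only [h1]
  rw [lintegral_mul_const' _ _ hf.eLpNorm_ne_top,
    ofReal_integral_norm_eq_lintegral_enorm (hk.cont.integrable_of_hasCompactSupport hk.supp)]

/-- dilations of the `L³` norm (no measurability needed). -/
theorem eLpNorm3_comp_smul (g : E3 → ℂ) {c : ℝ} (hc : 0 < c) :
    eLpNorm (fun z => g (c • z)) 3 volume = ENNReal.ofReal c⁻¹ * eLpNorm g 3 volume := by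
  have h3 : (3 : ℝ≥0∞).toReal = 3 := by norm_num
  have e : ∀ g : E3 → ℂ, eLpNorm g 3 volume = (∫⁻ b, ‖g b‖ₑ ^ (3 : ℝ)) ^ (1 / 3 : ℝ) := fun g => by
    rw [eLpNorm_eq_lintegral_rpow_enorm_toReal (by norm_num) (by norm_num), h3]
  rw [e, e]
  have hmap : Measure.map (fun z : E3 => c • z) volume = ENNReal.ofReal (c ^ 3)⁻¹ • (volume : Measure E3) := by
    rw [Measure.map_addHaar_smul volume hc.ne']
    simp [abs_of_pos (pow_pos hc 3)]
  have h1 : ∫⁻ z : E3, ‖g (c • z)‖ₑ ^ (3 : ℝ) = ENNReal.ofReal (c ^ 3)⁻¹ * ∫⁻ u : E3, ‖g u‖ₑ ^ (3 : ℝ) := by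
    have h2 := lintegral_map_equiv (μ := (volume : Measure E3)) (fun u : E3 => ‖g u‖ₑ ^ (3 : ℝ))
      (Homeomorph.smulOfNeZero c hc.ne').toMeasurableEquiv
    have h4 : ⇑(Homeomorph.smulOfNeZero c hc.ne' : E3 ≃ₜ E3).toMeasurableEquiv = fun z : E3 => c • z := rfl
    rw [h4, hmap, lintegral_smul_measure] at h2
    exact h2.symm
  rw [h1, ENNReal.mul_rpow_of_nonneg _ _ (by norm_num), ENNReal.ofReal_rpow_of_nonneg (by positivity) (by norm_num)]
  congr 2
  rw [← inv_pow, ← Real.rpow_natCast, ← Real.rpow_mul (by positivity)]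
  norm_num

theorem memLp3_comp_smul (hf : MemLp f 3 volume) {c : ℝ} (hc : 0 < c) : MemLp (fun z => f (c • z)) 3 volume := by
  have hmap : Measure.map (fun z : E3 => c • z) volume = ENNReal.ofReal (c ^ 3)⁻¹ • (volume : Measure E3) := by
    rw [Measure.map_addHaar_smul volume hc.ne']
    simp [abs_of_pos (pow_pos hc 3)]
  have h1 : MemLp f 3 (Measure.map (fun z : E3 => c • z) volume) := by
    rw [hmap]
    exact hf.smul_measure ENNReal.ofReal_ne_top
  exact h1.comp_of_map (measurable_const_smul c).aemeasurable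

/-- **BR-T4** dilations.  `kop (k (lam⁻¹ • ·)) f z = lam³ kop k (f (lam • ·)) (lam⁻¹ • z)` (`Measure.integral_comp_smul`, `finrank = 3`),
`eLpNorm (g (c • ·)) 3 = c^{-1} eLpNorm g 3` for `c > 0` (`Measure.lintegral_comp_smul`-type: `MeasurePreserving`/`Measure.map_addHaar_smul`). -/
theorem KBd.scale (h : KBd k C) {lam : ℝ} (hlam : 0 < lam) : KBd (fun x => k (lam⁻¹ • x)) (lam ^ 3 * C) := by
  intro f hf
  have e : kop (fun x => k (lam⁻¹ • x)) f
      = ((lam ^ 3 : ℝ) : ℂ) • fun z => kop k (fun u => f (lam • u)) (lam⁻¹ • z) := by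
    funext z
    have h1 := Measure.integral_comp_smul (volume : Measure E3) (fun y => k (lam⁻¹ • (z - y)) * f y) lam
    have h2 : Module.finrank ℝ E3 = 3 := by simp
    rw [h2, abs_of_pos (inv_pos.2 (pow_pos hlam 3))] at h1
    have h3 : ∀ u : E3, lam⁻¹ • (z - lam • u) = lam⁻¹ • z - u := fun u => by
      rw [smul_sub, smul_smul, inv_mul_cancel₀ hlam.ne', one_smul]
    simp only [h3] at h1
    simp only [kop, Pi.smul_apply]
    rw [h1, Complex.real_smul, smul_eq_mul, ← mul_assoc, ← Complex.ofReal_mul,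
      mul_inv_cancel₀ (pow_pos hlam 3).ne', Complex.ofReal_one, one_mul]
  rw [e, eLpNorm_const_smul, eLpNorm3_comp_smul (kop k fun u => f (lam • u)) (inv_pos.2 hlam), inv_inv]
  have h4 := h _ (memLp3_comp_smul hf hlam)
  rw [eLpNorm3_comp_smul f hlam] at h4
  have h5 : ‖((lam ^ 3 : ℝ) : ℂ)‖ₑ = ENNReal.ofReal (lam ^ 3) := by
    rw [← ofReal_norm, Complex.norm_real, Real.norm_of_nonneg (by positivity)]
  rw [h5, ENNReal.ofReal_mul (by positivity)]
  calc ENNReal.ofReal (lam ^ 3) * (ENNReal.ofReal lam * eLpNorm (kop k fun u => f (lam • u)) 3 volume)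
      ≤ ENNReal.ofReal (lam ^ 3) * (ENNReal.ofReal lam *
          (ENNReal.ofReal C * (ENNReal.ofReal lam⁻¹ * eLpNorm f 3 volume))) := by gcongr
    _ = ENNReal.ofReal (lam ^ 3) * ENNReal.ofReal C * ((ENNReal.ofReal lam * ENNReal.ofReal lam⁻¹) * eLpNorm f 3 volume) := by
        ring
    _ = ENNReal.ofReal (lam ^ 3) * ENNReal.ofReal C * eLpNorm f 3 volume := by
        rw [← ENNReal.ofReal_mul hlam.le, mul_inv_cancel₀ hlam.ne', ENNReal.ofReal_one, one_mul]

/-- superposition, global hypotheses in `τ`. -/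
theorem KBd_super_aux {a b : ℝ} (hab : a ≤ b) {κ : ℝ → E3 → ℂ} (hκ : Continuous (Function.uncurry κ)) {R M : ℝ}
    (hR : ∀ τ w, κ τ w ≠ 0 → ‖w‖ ≤ R) (hM : ∀ τ w, ‖κ τ w‖ ≤ M) {m : ℝ → ℝ}
    (hN : ∀ τ, KBd (κ τ) (m τ)) (hm0 : ∀ τ, 0 ≤ m τ) (hmc : Continuous m) :
    KBd (fun x => ∫ τ in a..b, κ τ x) (∫ τ in a..b, m τ) := by
  intro f hf
  set μ : Measure ℝ := volume.restrict (Set.Ioc a b) with hμ
  have hfl : LocallyIntegrable f volume := hf.locallyIntegrable (by norm_num)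
  -- Fubini
  have hfub : kop (fun x => ∫ τ in a..b, κ τ x) f = fun z => ∫ τ, kop (κ τ) f z ∂μ := by
    funext z
    have hint : Integrable (Function.uncurry fun (y : E3) (τ : ℝ) => κ τ (z - y) * f y) ((volume : Measure E3).prod μ) := by
      have hdom : Integrable (fun y : E3 => M * (Metric.closedBall z R).indicator (fun y => ‖f y‖) y) volume := by
        refine Integrable.const_mul ?_ M
        rw [integrable_indicator_iff measurableSet_closedBall]
        exact (hfl.integrableOn_isCompact (isCompact_closedBall z R)).norm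
      refine (hdom.comp_fst μ).mono' ?_ (Filter.Eventually.of_forall ?_)
      · refine AEStronglyMeasurable.mul ?_ hf.aestronglyMeasurable.comp_fst
        have hc : Continuous fun p : E3 × ℝ => κ p.2 (z - p.1) :=
          hκ.comp (continuous_snd.prodMk (continuous_const.sub continuous_fst))
        exact hc.aestronglyMeasurable
      · rintro ⟨y, τ⟩
        simp only [Function.uncurry_apply_pair, norm_mul]
        by_cases hy : y ∈ Metric.closedBall z R
        · rw [Set.indicator_of_mem hy]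
          exact mul_le_mul_of_nonneg_right (hM τ _) (norm_nonneg _)
        · have h0 : κ τ (z - y) = 0 := by
            by_contra hne
            apply hy
            rw [Metric.mem_closedBall, dist_comm, dist_eq_norm]
            exact hR τ _ hne
          rw [h0, Set.indicator_of_notMem hy]
          simp
    simp only [kop]
    rw [← integral_integral_swap hint]
    refine integral_congr_ae (Filter.Eventually.of_forall fun y => ?_)
    simp only
    rw [intervalIntegral.integral_of_le hab, integral_mul_const]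
  have hmeas : AEStronglyMeasurable (Function.uncurry fun (τ : ℝ) (z : E3) => kop (κ τ) f z)
      (μ.prod (volume : Measure E3)) := by
    have h1 : AEStronglyMeasurable (fun q : (ℝ × E3) × E3 => κ q.1.1 (q.1.2 - q.2) * f q.2)
        ((μ.prod (volume : Measure E3)).prod (volume : Measure E3)) := by
      refine AEStronglyMeasurable.mul ?_ hf.aestronglyMeasurable.comp_snd
      have hc : Continuous fun q : (ℝ × E3) × E3 => κ q.1.1 (q.1.2 - q.2) :=
        hκ.comp ((continuous_fst.comp continuous_fst).prodMk ((continuous_snd.comp continuous_fst).sub continuous_snd))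
      exact hc.aestronglyMeasurable
    exact h1.integral_prod_right'
  rw [hfub]
  refine (mink3 μ volume (fun τ z => kop (κ τ) f z) hmeas).trans ?_
  calc ∫⁻ τ, eLpNorm (fun z => kop (κ τ) f z) 3 volume ∂μ
      ≤ ∫⁻ τ, ENNReal.ofReal (m τ) * eLpNorm f 3 volume ∂μ := lintegral_mono fun τ => hN τ f hf
    _ = (∫⁻ τ, ENNReal.ofReal (m τ) ∂μ) * eLpNorm f 3 volume := lintegral_mul_const' _ _ hf.eLpNorm_ne_top
    _ = ENNReal.ofReal (∫ τ in a..b, m τ) * eLpNorm f 3 volume := by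
        rw [intervalIntegral.integral_of_le hab, ofReal_integral_eq_lintegral_ofReal
          ((hmc.intervalIntegrable a b).1) (Filter.Eventually.of_forall hm0)]

/-- the clamp `τ ↦ max a (min b τ)`. -/
theorem super_clamp {a b : ℝ} (hab : a ≤ b) :
    Continuous (fun τ : ℝ => ((Set.projIcc a b hab τ : Set.Icc a b) : ℝ)) ∧
    (∀ τ, ((Set.projIcc a b hab τ : Set.Icc a b) : ℝ) ∈ Set.Icc a b) ∧
    ∀ τ ∈ Set.Icc a b, ((Set.projIcc a b hab τ : Set.Icc a b) : ℝ) = τ :=
  ⟨continuous_subtype_val.comp continuous_projIcc, fun τ => (Set.projIcc a b hab τ).2,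
    fun τ hτ => by rw [Set.projIcc_of_mem hab hτ]⟩

/-- **BR-T5** superposition of kernels.  Fubini: `kop (∫ τ, w τ κ_τ) f z = ∫ τ in a..b, w τ * kop (κ τ) f z`; `mink3` on `(volume.restrict (Ι a b)) × volume`;
`lintegral_mono` with `hN`, `hm`; `ofReal_integral_eq_lintegral_ofReal`. -/
theorem KBd_super {a b : ℝ} (hab : a ≤ b) {κ : ℝ → E3 → ℂ} (hκ : Continuous (Function.uncurry κ)) {R : ℝ}
    (hR : ∀ τ w, κ τ w ≠ 0 → ‖w‖ ≤ R) {w : ℝ → ℂ} (hw : ContinuousOn w (Set.Icc a b)) {N m : ℝ → ℝ}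
    (hN : ∀ τ ∈ Set.Icc a b, KBd (κ τ) (N τ)) (hm : ∀ τ ∈ Set.Icc a b, ‖w τ‖ * N τ ≤ m τ) (hm0 : ∀ τ ∈ Set.Icc a b, 0 ≤ m τ)
    (hmc : ContinuousOn m (Set.Icc a b)) :
    KBd (fun x => ∫ τ in a..b, w τ * κ τ x) (∫ τ in a..b, m τ) := by
  obtain ⟨hpc, hpm, hpe⟩ := super_clamp hab
  set pr : ℝ → ℝ := fun τ => ((Set.projIcc a b hab τ : Set.Icc a b) : ℝ) with hpr
  have hpe' : ∀ τ ∈ Set.Icc a b, pr τ = τ := hpe
  have hpm' : ∀ τ, pr τ ∈ Set.Icc a b := hpm
  have hwc : Continuous fun τ => w (pr τ) := hw.comp_continuous hpc hpm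
  have hmc' : Continuous fun τ => m (pr τ) := hmc.comp_continuous hpc hpm
  have hκ' : Continuous (Function.uncurry fun (τ : ℝ) (x : E3) => w (pr τ) * κ (pr τ) x) :=
    (hwc.comp continuous_fst).mul (hκ.comp ((hpc.comp continuous_fst).prodMk continuous_snd))
  -- a global bound
  obtain ⟨M, hM⟩ := ((isCompact_Icc (a := a) (b := b)).prod (isCompact_closedBall (0 : E3) R)).exists_bound_of_continuousOn
    hκ'.continuousOn
  have hM' : ∀ τ x, ‖w (pr τ) * κ (pr τ) x‖ ≤ max M 0 := by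
    intro τ x
    by_cases hx : κ (pr τ) x = 0
    · rw [hx, mul_zero, norm_zero]
      exact le_max_right _ _
    · have h1 := hM (pr τ, x) ⟨hpm τ, by simpa using hR _ _ hx⟩
      simp only [Function.uncurry_apply_pair] at h1
      rw [hpe' _ (hpm' τ)] at h1
      exact h1.trans (le_max_left _ _)
  have key := KBd_super_aux hab hκ' (R := R) (M := max M 0) (m := fun τ => m (pr τ))
    (fun τ x hne => hR (pr τ) x (right_ne_zero_of_mul hne)) hM'
    (fun τ => ((hN _ (hpm τ)).const_mul (w (pr τ))).mono (hm _ (hpm τ))) (fun τ => hm0 _ (hpm τ)) hmc'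
  have e1 : (fun x => ∫ τ in a..b, w τ * κ τ x) = fun x => ∫ τ in a..b, w (pr τ) * κ (pr τ) x := by
    funext x
    refine intervalIntegral.integral_congr fun τ hτ => ?_
    rw [Set.uIcc_of_le hab] at hτ
    simp only [hpe' τ hτ]
  have e2 : ∫ τ in a..b, m τ = ∫ τ in a..b, m (pr τ) := by
    refine intervalIntegral.integral_congr fun τ hτ => ?_
    rw [Set.uIcc_of_le hab] at hτ
    simp only [hpe' τ hτ]
  rw [e1, e2]
  exact key

/-- **BR-T5'** the superposed kernel is again continuous with compact support. -/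
theorem CK_super {a b : ℝ} (hab : a ≤ b) {κ : ℝ → E3 → ℂ} (hκ : Continuous (Function.uncurry κ)) {R : ℝ}
    (hR : ∀ τ w, κ τ w ≠ 0 → ‖w‖ ≤ R) {w : ℝ → ℂ} (hw : ContinuousOn w (Set.Icc a b)) :
    CK (fun x => ∫ τ in a..b, w τ * κ τ x) := by
  obtain ⟨hpc, hpm, hpe⟩ := super_clamp hab
  set pr : ℝ → ℝ := fun τ => ((Set.projIcc a b hab τ : Set.Icc a b) : ℝ) with hpr
  have hpe' : ∀ τ ∈ Set.Icc a b, pr τ = τ := hpe
  have hpm' : ∀ τ, pr τ ∈ Set.Icc a b := hpm
  have hwc : Continuous fun τ => w (pr τ) := hw.comp_continuous hpc hpm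
  have e1 : (fun x => ∫ τ in a..b, w τ * κ τ x) = fun x => ∫ τ in a..b, w (pr τ) * κ τ x := by
    funext x
    refine intervalIntegral.integral_congr fun τ hτ => ?_
    rw [Set.uIcc_of_le hab] at hτ
    simp only [hpe' τ hτ]
  refine ⟨?_, HasCompactSupport.intro (isCompact_closedBall (0 : E3) R) fun x hx => ?_⟩
  · rw [e1]
    refine intervalIntegral.continuous_parametric_intervalIntegral_of_continuous' ?_ a b
    exact (hwc.comp continuous_snd).mul (hκ.comp (continuous_snd.prodMk continuous_fst))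
  · have h0 : ∀ τ, κ τ x = 0 := by
      intro τ
      by_contra hne
      exact hx (by simpa using hR τ x hne)
    simp [h0]

end kop

end Claimed.Agent.R255.BR
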