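import Claimed.Agent.R255.BR.Loc
import Claimed.Agent.R255.BR.Shell

/-!
# R255 / BR / Top : `Osc.OSC ⟹ S0495`                                             (architect helper9)

The sum of the dyadic shells (BR paper l.354-372): Young for the core, geometric series for the shells, Fatou (`Lp.eLpNorm_lim_le_liminf_eLpNorm`) for the limit.
`Claimed/Agent/S0495.lean` will be `br_main <proof of Osc.OSC> δ hδ`.
-/

set_option autoImplicit false

namespace Claimed.Agent.R255.BR

open MeasureTheory Complex Claims.C0423 Filter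
open scoped ENNReal ContDiff InnerProductSpace Real FourierTransform Topology

theorem br_main (h : Osc.OSC) (δ : ℝ) (hδ : 0 < δ) :
    ∃ C : ℝ, ∀ f : SchwartzMap E3 ℂ,
      eLpNorm (bochnerRiesz δ f) 3 volume ≤ ENNReal.ofReal C * eLpNorm (f : E3 → ℂ) 3 volume := by
  obtain ⟨C, q, hC, hq0, hq1, hsh⟩ := shk_bound (unitShell_of_osc h) hδ
  refine ⟨(∫ w, ‖K0 δ w‖) + C / (1 - q), fun f => ?_⟩
  have hf3 : MemLp (f : E3 → ℂ) 3 volume := f.memLp 3
  have hf1 : Integrable (f : E3 → ℂ) volume := f.integrable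
  -- the truncated kernels
  have hKJ : ∀ J : ℕ, KBd (fun w => K0 δ w + ∑ j ∈ Finset.Icc 1 J, shk δ j w) ((∫ w, ‖K0 δ w‖) + C / (1 - q)) := by
    intro J
    have h1 : KBd (fun w => ∑ j ∈ Finset.Icc 1 J, shk δ j w) (∑ j ∈ Finset.Icc 1 J, C * q ^ j) :=
      KBd.sum _ (fun j _ => shk_ck hδ j) (fun j hj => hsh j (Finset.mem_Icc.1 hj).1) (fun j _ => by positivity)
    have h2 := KBd.add (K0_ck hδ) (CK.sum _ fun j _ => shk_ck hδ j) (KBd_young (K0_ck hδ)) h1
      (integral_nonneg fun _ => norm_nonneg _) (Finset.sum_nonneg fun j _ => by positivity)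
    refine h2.mono ?_
    have h3 : ∑ j ∈ Finset.Icc 1 J, C * q ^ j ≤ C / (1 - q) := by
      rw [← Finset.mul_sum, div_eq_mul_inv]
      refine mul_le_mul_of_nonneg_left ?_ hC
      rw [← tsum_geometric_of_lt_one hq0 hq1]
      exact (summable_geometric_of_lt_one hq0 hq1).sum_le_tsum _ (fun j _ => by positivity)
    linarith
  have hlim : ∀ x : E3, Tendsto (fun J : ℕ => kop (fun w => K0 δ w + ∑ j ∈ Finset.Icc 1 J, shk δ j w) f x) atTop
      (𝓝 (kop (Kbr δ) f x)) := by
    intro x
    unfold kop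
    refine tendsto_integral_of_dominated_convergence (fun y => 2 * π * ‖f y‖) ?_ (hf1.norm.const_mul _) ?_ ?_
    · intro J
      exact (kop_integrable ((K0_ck hδ).add (CK.sum _ fun j _ => shk_ck hδ j)) hf3 x).aestronglyMeasurable
    · intro J
      refine Eventually.of_forall fun y => ?_
      show ‖(K0 δ (x - y) + ∑ j ∈ Finset.Icc 1 J, shk δ j (x - y)) * f y‖ ≤ _
      rw [K0_add_sum, norm_mul, norm_mul]
      refine mul_le_mul_of_nonneg_right ?_ (norm_nonneg _)
      rw [Complex.norm_real, Real.norm_eq_abs, abs_of_nonneg (bcut_nonneg _)]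
      calc bcut _ * ‖Kbr δ (x - y)‖ ≤ 1 * (2 * π) :=
            mul_le_mul (bcut_le_one _) (Gc_bound δ hδ _) (norm_nonneg _) zero_le_one
        _ = 2 * π := one_mul _
    · refine Eventually.of_forall fun y => ?_
      refine tendsto_const_nhds.congr' ?_
      have h4 : Tendsto (fun J : ℕ => (4 : ℝ) ^ J) atTop atTop := tendsto_pow_atTop_atTop_of_one_lt (by norm_num)
      filter_upwards [h4.eventually_ge_atTop (‖x - y‖ ^ 2)] with J hJ
      show _ = (K0 δ (x - y) + ∑ j ∈ Finset.Icc 1 J, shk δ j (x - y)) * f y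
      rw [K0_add_sum, bcut_one ((div_le_one (by positivity)).2 hJ)]
      simp
  have hbr : bochnerRiesz δ f = kop (Kbr δ) f := funext fun x => br_conv hδ f x
  rw [hbr]
  refine (Lp.eLpNorm_lim_le_liminf_eLpNorm (fun J =>
    (kop_continuous ((K0_ck hδ).add (CK.sum _ fun j _ => shk_ck hδ j)) hf3).aestronglyMeasurable) _
    (Eventually.of_forall hlim)).trans ?_
  refine liminf_le_of_le (by isBoundedDefault) ?_
  intro b hb
  obtain ⟨J, hJ⟩ := hb.exists
  exact hJ.trans (hKJ J f hf3)

end Claimed.Agent.R255.BR
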